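import Vale.Agent.P244.H109.Main

set_option linter.all false

/-! # The circle as a Ricci flat factor; singular flows in every dimension `n ≥ 41` -/

open scoped Manifold ContDiff Topology RealInnerProductSpace
open Set Module

namespace Vale.Agent.P244.H109

open Vale.Agent.P244.Flow (Tensor val comp pd christoffel ricci scalarCurvature IsRicciFlow
  ExtendsPast std)
open Vale.Agent.P244.GeoP (connected_sph dcirc dcirc_symm gAt dsym comp_eq_gAt mdiff_circ
  exists_symm_eq')
open Vale.Agent.P244.Geo (EE dl)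
open Vale.Agent.P244.GeoM

attribute [local instance] factFinrank

/-- the round metric of the circle -/
noncomputable def circT : Tensor (EuclideanSpace ℝ (Fin 1)) (Sphere 1) := fun x =>
  (show EE 1 →L[ℝ] EE 1 →L[ℝ] ℝ from (innerBil (EE 2)).bilinearComp (dcirc x) (dcirc x))

theorem circle_manifold : IsManifold 𝓘(ℝ, EuclideanSpace ℝ (Fin 1)) ∞ (Sphere 1) := by
  have h2 : IsManifold (𝓡 1) ∞ (Sph 1) := IsManifold.of_le (n := ω) le_top
  exact h2

theorem circle_closed : IsClosedManifold (EuclideanSpace ℝ (Fin 1)) (Sphere 1) := by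
  have h2 : ConnectedSpace (Sphere 1) := connected_sph 1 one_pos
  exact ⟨circle_manifold, inferInstance, inferInstance, h2⟩

theorem circT_symm_val (s : Sph 1) (y a b : EE 1) :
    gAt circT ((stereographic' 1 s).symm y) (dsym (stereographic' 1 s) y a)
      (dsym (stereographic' 1 s) y b) = Vale.Agent.P244.Geo.rho y ^ 2 * ⟪a, b⟫ :=
  (congrArg₂ (fun a b : EE 2 => ⟪a, b⟫) (dcirc_symm s y a) (dcirc_symm s y b)).trans
    (inner_fderiv_par s y a b)

theorem circT_comp (s : Sph 1) (y : EE 1) (i j : Fin 1) :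
    comp (std 1) circT (stereographic' 1 s) y i j = Vale.Agent.P244.Geo.rho y ^ 2 * dl i j := by
  rw [comp_eq_gAt, circT_symm_val]
  congr 1
  unfold std dl
  simp [EuclideanSpace.inner_single_left, Pi.single_apply, eq_comm]

theorem ricci_one (G : EE 1 → Matrix (Fin 1) (Fin 1) ℝ) (i j : Fin 1) (y : EE 1) :
    ricci (std 1) G i j y = 0 := by
  unfold ricci
  have h1 : i = 0 := Subsingleton.elim _ _
  have h2 : j = 0 := Subsingleton.elim _ _
  subst h1 h2
  simp

theorem circle_einstein : IsEinstein (std 1) circT 0 where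
  symm x a b := by
    have h : gAt circT x a b = gAt circT x b a := by
      show ⟪dcirc x a, dcirc x b⟫ = ⟪dcirc x b, dcirc x a⟫
      exact real_inner_comm _ _
    exact h
  pos x a ha := by
    have hm := circle_manifold
    obtain ⟨w', hw'⟩ := exists_symm_eq' (V := EE 1) (M := Sph 1) x a
    have h1 : chartAt (EE 1) x = stereographic' 1 (-x) := rfl
    have h2 := (chartAt (EE 1) x).left_inv (mem_chart_source (EE 1) x)
    have h3 : gAt circT x a a = Vale.Agent.P244.Geo.rho (chartAt (EE 1) x x) ^ 2 * ⟪w', w'⟫ := by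
      have h4 := circT_symm_val (-x) (chartAt (EE 1) x x) w' w'
      have h5 : gAt circT ((chartAt (EE 1) x).symm (chartAt (EE 1) x x))
          (dsym (chartAt (EE 1) x) (chartAt (EE 1) x x) w')
          (dsym (chartAt (EE 1) x) (chartAt (EE 1) x x) w') =
          Vale.Agent.P244.Geo.rho (chartAt (EE 1) x x) ^ 2 * ⟪w', w'⟫ := h4
      rw [h2, hw'] at h5
      exact h5
    have h4 : w' ≠ 0 := by
      rintro rfl
      apply ha
      rw [← hw', map_zero]
      rfl
    have h5 : 0 < gAt circT x a a := by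
      rw [h3, real_inner_self_eq_norm_sq]
      have := Vale.Agent.P244.Geo.rho_pos (chartAt (EE 1) x x)
      positivity
    exact h5
  smooth e he i j := by
    obtain ⟨s, rfl⟩ := he
    have h1 : (fun y : EE 1 => comp (std 1) circT (stereographic' 1 s) y i j) =
        fun y => Vale.Agent.P244.Geo.rho y ^ 2 * dl i j := by
      funext y
      exact circT_comp s y i j
    rw [h1]
    have h2 : ContDiff ℝ ∞ (fun y : EE 1 => Vale.Agent.P244.Geo.rho y) := by
      unfold Vale.Agent.P244.Geo.rho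
      refine contDiff_const.div ((contDiff_norm_sq ℝ).add contDiff_const) (fun y => ?_)
      have := normSq_pos y
      exact this.ne'
    exact ((h2.pow 2).mul contDiff_const).contDiffOn
  einstein e he y hy i j := by
    rw [ricci_one, zero_mul]

section

attribute [local instance 10] prodCharted

/-- Singular flows in dimension `n`, with the data needed for products. -/
def Sing (n : ℕ) : Prop :=
  ∃ (V : Type) (_ : NormedAddCommGroup V) (_ : NormedSpace ℝ V) (v : Basis (Fin n) ℝ V)
    (M : Type) (_ : TopologicalSpace M) (_ : ChartedSpace V M), IsClosedManifold V M ∧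
    ∀ T > 0, ∃ g : ℝ → Tensor V M, IsRicciFlow v g T ∧
      (∃ C : ℝ, ∀ t ∈ Ico 0 T, ∀ x, |scalarCurvature v (g t) x| ≤ C) ∧
      Rate (v : Fin n → V) g T

theorem sing_base : Sing 41 := by
  obtain ⟨v, hv⟩ := basis_spheres
  refine ⟨_, inferInstance, inferInstance, v, Sphere 21 × Sphere 20, inferInstance, inferInstance,
    closed_spheres, fun T hT => ?_⟩
  obtain ⟨g, h1, h2, h3⟩ := base_flow' hT
  refine ⟨g, ?_, ?_, ?_⟩
  · rw [hv]; exact h1
  · rw [hv]; exact h2
  · rw [hv]; exact h3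

theorem prod_data {V : Type*} [NormedAddCommGroup V] [NormedSpace ℝ V] {n : ℕ}
    {M : Type*} [TopologicalSpace M] [ChartedSpace V M]
    {W : Type*} [NormedAddCommGroup W] [NormedSpace ℝ W] {d : ℕ}
    {N : Type*} [TopologicalSpace N] [ChartedSpace W N]
    [IsManifold 𝓘(ℝ, V) ∞ M] [IsManifold 𝓘(ℝ, W) ∞ N] [Nonempty N]
    (v : Basis (Fin n) ℝ V) (w : Basis (Fin d) ℝ W) {g : ℝ → Tensor V M} {h : ℝ → Tensor W N}
    {T : ℝ} (hg : IsRicciFlow v g T)
    (hb : ∃ C : ℝ, ∀ t ∈ Ico 0 T, ∀ x, |scalarCurvature v (g t) x| ≤ C)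
    (hr : Rate (v : Fin n → V) g T) (hh : IsRicciFlow w h T)
    (hb' : ∃ C : ℝ, ∀ t ∈ Ico 0 T, ∀ x, |scalarCurvature w (h t) x| ≤ C) :
    IsRicciFlow (prodFrame v w) (fun t => prodTensor (g t) (h t)) T ∧
    (∃ C : ℝ, ∀ t ∈ Ico 0 T, ∀ x : M × N,
      |scalarCurvature (prodFrame v w) (prodTensor (g t) (h t)) x| ≤ C) ∧
    Rate (prodFrame v w) (fun t => prodTensor (g t) (h t)) T := by
  refine ⟨prod_flow v w hg hh, ?_, prod_rate v w hg hh hr⟩
  obtain ⟨C, hC⟩ := hb
  obtain ⟨C', hC'⟩ := hb'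
  refine ⟨C + C', fun t ht x => ?_⟩
  rw [prod_scal v w hg hh ht x]
  exact (abs_add_le _ _).trans (add_le_add (hC t ht _) (hC' t ht _))

theorem sing_succ {n : ℕ} (h : Sing n) : Sing (n + 1) := by
  obtain ⟨V, i1, i2, v, M, i3, i4, hM, hT⟩ := h
  let w : Basis (Fin 1) ℝ (EE 1) := (EuclideanSpace.basisFun (Fin 1) ℝ).toBasis
  have hw : (w : Fin 1 → EE 1) = std 1 := by
    funext i
    simp [w, std]
  obtain ⟨b, hb⟩ := prod_basis v w
  have hm1 := hM.smooth
  have hm2 := circle_manifold
  have hne : Nonempty (Sphere 1) := circle_closed.connected.toNonempty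
  refine ⟨V × EE 1, inferInstance, inferInstance, b, M × Sphere 1, inferInstance,
    prodCharted V (EE 1) M (Sphere 1), closed_prod hM circle_closed, fun T hT0 => ?_⟩
  obtain ⟨g, h1, h2, h3⟩ := hT T hT0
  have hE : IsEinstein w circT 0 := by rw [hw]; exact circle_einstein
  obtain ⟨e1, e2⟩ := einstein_flow w hE (T := T) (by norm_num)
  obtain ⟨a1, a2, a3⟩ := prod_data v w h1 h2 h3 e1 e2
  refine ⟨fun t => prodTensor (g t) (einsteinFlow circT 0 t), ?_, ?_, ?_⟩
  · rw [hb]; exact a1
  · rw [hb]; exact a2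
  · rw [hb]; exact a3

theorem sing_all (n : ℕ) (hn : 41 ≤ n) : Sing n := by
  obtain ⟨k, rfl⟩ := Nat.exists_eq_add_of_le hn
  clear hn
  induction k with
  | zero => exact sing_base
  | succ k ih => exact sing_succ ih

theorem carries {V : Type*} [NormedAddCommGroup V] [NormedSpace ℝ V] {n : ℕ}
    {M : Type*} [TopologicalSpace M] [ChartedSpace V M] (v : Basis (Fin n) ℝ V)
    (hM : IsClosedManifold V M) (hT : ∀ T > 0, ∃ g : ℝ → Tensor V M, IsRicciFlow v g T ∧
      (∃ C : ℝ, ∀ t ∈ Ico 0 T, ∀ x, |scalarCurvature v (g t) x| ≤ C) ∧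
      Rate (v : Fin n → V) g T) : CarriesSingularFlows (v : Fin n → V) M := by
  have hm := hM.smooth
  refine ⟨hM, fun T hT0 => ?_⟩
  obtain ⟨g, h1, h2, h3⟩ := hT T hT0
  refine ⟨g, isSingularFlow_of_rate v hT0 h1 h2 h3, ?_⟩
  intro d W _ _ w N _ _ hn hne
  have key : ∀ h : ℝ → Tensor W N, IsRicciFlow w h T →
      Vale.Agent.P244.H426.BoundedScalar w h T →
      IsSingularFlow (prodFrame v w) (fun t => prodTensor (g t) (h t)) T :=
    fun h hh hb => prod_singular v w hT0 h1 h2 h3 hh hb
  refine ⟨fun hN => closed_prod hM hN, key, fun k c hk hc => ?_⟩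
  obtain ⟨e1, e2⟩ := einstein_flow w hk hc
  exact key _ e1 e2

/-- the conjecture of the problem is false -/
theorem not_conjecture : ¬ Vale.Agent.P244.H426.ExtensionConjecture := by
  intro h
  obtain ⟨V, i1, i2, v, M, i3, i4, hM, hT⟩ := sing_all 41 le_rfl
  obtain ⟨g, h1, h2, h3⟩ := hT 1 one_pos
  have hm1 := hM.smooth
  have hm2 := hM.compact
  have hm3 := hM.hausdorff
  have hm4 := hM.connected
  exact (isSingularFlow_of_rate v one_pos h1 h2 h3).maximal
    (h 41 (by norm_num) V v M 1 one_pos g h1 h2)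

end

end Vale.Agent.P244.H109
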