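import Vale.Agent.P244.H109.Defs
import Vale.Agent.P244.Bd3.B8

set_option linter.all false

/-! # Product of two metrics, coordinate side -/

open scoped ContDiff
open Set
open Vale.Agent.P244.Flow (pd christoffel ricci)

namespace Vale.Agent.P244.H109

open Vale.Agent.P244.Geo (blk blk_ll blk_lr blk_rl blk_rr blk_inv dl)
open Vale.Agent.P244.GeoP (fderiv_snd' pd_congr pd_zero)

variable {V : Type*} [NormedAddCommGroup V] [NormedSpace ℝ V] {n : ℕ}
  {W : Type*} [NormedAddCommGroup W] [NormedSpace ℝ W] {d : ℕ}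

/-- the product metric -/
def pm (G : V → Matrix (Fin n) (Fin n) ℝ) (H : W → Matrix (Fin d) (Fin d) ℝ) (y : V × W) :
    Matrix (Fin (n + d)) (Fin (n + d)) ℝ :=
  blk (fun i j => G y.1 i j) (fun a b => H y.2 a b)

variable (v : Fin n → V) (w : Fin d → W) (G : V → Matrix (Fin n) (Fin n) ℝ)
  (H : W → Matrix (Fin d) (Fin d) ℝ)

lemma pf_left (i : Fin n) : prodFrame v w (Fin.castAdd d i) = (v i, 0) := by simp [prodFrame]

lemma pf_right (a : Fin d) : prodFrame v w (Fin.natAdd n a) = (0, w a) := by simp [prodFrame]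

lemma pm_ll (y : V × W) (i j : Fin n) :
    pm G H y (Fin.castAdd d i) (Fin.castAdd d j) = G y.1 i j := by unfold pm; rw [blk_ll]

lemma pm_lr (y : V × W) (i : Fin n) (a : Fin d) :
    pm G H y (Fin.castAdd d i) (Fin.natAdd n a) = 0 := by unfold pm; rw [blk_lr]

lemma pm_rl (y : V × W) (i : Fin n) (a : Fin d) :
    pm G H y (Fin.natAdd n a) (Fin.castAdd d i) = 0 := by unfold pm; rw [blk_rl]

lemma pm_rr (y : V × W) (a b : Fin d) :
    pm G H y (Fin.natAdd n a) (Fin.natAdd n b) = H y.2 a b := by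
  unfold pm; rw [blk_rr]

/-! ### partial derivatives of functions of one factor -/

lemma pd1_l (f : V → ℝ) (y : V × W) (i : Fin n) :
    pd (prodFrame v w) (Fin.castAdd d i) (fun z => f z.1) y = pd v i f y.1 := by
  unfold pd
  rw [GeoP.fderiv_fst, pf_left]
  rfl

lemma pd1_r (f : V → ℝ) (y : V × W) (a : Fin d) :
    pd (prodFrame v w) (Fin.natAdd n a) (fun z => f z.1) y = 0 := by
  unfold pd
  rw [GeoP.fderiv_fst, pf_right]
  simp

lemma pd2_l (f : W → ℝ) (y : V × W) (i : Fin n) :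
    pd (prodFrame v w) (Fin.castAdd d i) (fun z => f z.2) y = 0 := by
  unfold pd
  rw [fderiv_snd', pf_left]
  simp

lemma pd2_r (f : W → ℝ) (y : V × W) (a : Fin d) :
    pd (prodFrame v w) (Fin.natAdd n a) (fun z => f z.2) y = pd w a f y.2 := by
  unfold pd
  rw [fderiv_snd', pf_right]
  rfl

lemma pg_ll (i j k : Fin n) (y : V × W) :
    pd (prodFrame v w) (Fin.castAdd d k)
      (fun z => pm G H z (Fin.castAdd d i) (Fin.castAdd d j)) y = pd v k (fun z => G z i j) y.1 := by
  simp only [pm_ll]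
  exact pd1_l v w (fun z => G z i j) y k

lemma pg_ll' (i j : Fin n) (a : Fin d) (y : V × W) :
    pd (prodFrame v w) (Fin.natAdd n a)
      (fun z => pm G H z (Fin.castAdd d i) (Fin.castAdd d j)) y = 0 := by
  simp only [pm_ll]
  exact pd1_r v w (fun z => G z i j) y a

lemma pg_rr (a b : Fin d) (k : Fin n) (y : V × W) :
    pd (prodFrame v w) (Fin.castAdd d k)
      (fun z => pm G H z (Fin.natAdd n a) (Fin.natAdd n b)) y = 0 := by
  simp only [pm_rr]
  exact pd2_l v w (fun z => H z a b) y k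

lemma pg_rr' (a b c : Fin d) (y : V × W) :
    pd (prodFrame v w) (Fin.natAdd n c)
      (fun z => pm G H z (Fin.natAdd n a) (Fin.natAdd n b)) y = pd w c (fun z => H z a b) y.2 := by
  simp only [pm_rr]
  exact pd2_r v w (fun z => H z a b) y c

lemma pg_lr (i : Fin n) (a : Fin d) (y : V × W) (K : Fin (n + d)) :
    pd (prodFrame v w) K (fun z => pm G H z (Fin.castAdd d i) (Fin.natAdd n a)) y = 0 := by
  simp only [pm_lr]
  exact pd_zero _ _ _

lemma pg_rl (i : Fin n) (a : Fin d) (y : V × W) (K : Fin (n + d)) :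
    pd (prodFrame v w) K (fun z => pm G H z (Fin.natAdd n a) (Fin.castAdd d i)) y = 0 := by
  simp only [pm_rl]
  exact pd_zero _ _ _

variable {G H}

/-- the inverse of the product metric -/
lemma pm_inv {y : V × W} (h1 : IsUnit (G y.1).det) (h2 : IsUnit (H y.2).det) :
    (pm G H y)⁻¹ = blk (fun i j => (G y.1)⁻¹ i j) (fun a b => (H y.2)⁻¹ a b) := by
  unfold pm
  refine blk_inv (fun i j => ?_) (fun a b => ?_)
  · have h := congrFun (congrFun (Matrix.mul_nonsing_inv (G y.1) h1) i) j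
    rw [Matrix.mul_apply] at h
    rw [h, Matrix.one_apply]
    rfl
  · have h := congrFun (congrFun (Matrix.mul_nonsing_inv (H y.2) h2) a) b
    rw [Matrix.mul_apply] at h
    rw [h, Matrix.one_apply]
    rfl

variable {v w}

section christ

variable {y : V × W} (h1 : IsUnit (G y.1).det) (h2 : IsUnit (H y.2).det)

include h1 h2

lemma c_lll (k i j : Fin n) :
    christoffel (prodFrame v w) (pm G H) (Fin.castAdd d k) (Fin.castAdd d i) (Fin.castAdd d j) y =
      christoffel v G k i j y.1 := by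
  unfold christoffel
  rw [pm_inv h1 h2, Fin.sum_univ_add]
  simp only [blk_ll, blk_lr, pg_ll, zero_mul, Finset.sum_const_zero, add_zero]

lemma c_llr (k i : Fin n) (a : Fin d) :
    christoffel (prodFrame v w) (pm G H) (Fin.castAdd d k) (Fin.castAdd d i) (Fin.natAdd n a) y =
      0 := by
  unfold christoffel
  rw [pm_inv h1 h2, Fin.sum_univ_add]
  simp only [blk_ll, blk_lr, pg_ll', pg_lr, pg_rl, zero_mul, Finset.sum_const_zero,
    add_zero, sub_zero, mul_zero]

lemma c_lrl (k i : Fin n) (a : Fin d) :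
    christoffel (prodFrame v w) (pm G H) (Fin.castAdd d k) (Fin.natAdd n a) (Fin.castAdd d i) y =
      0 := by
  unfold christoffel
  rw [pm_inv h1 h2, Fin.sum_univ_add]
  simp only [blk_ll, blk_lr, pg_ll', pg_lr, pg_rl, zero_mul, Finset.sum_const_zero,
    add_zero, sub_zero, mul_zero]

lemma c_lrr (k : Fin n) (a b : Fin d) :
    christoffel (prodFrame v w) (pm G H) (Fin.castAdd d k) (Fin.natAdd n a) (Fin.natAdd n b) y =
      0 := by
  unfold christoffel
  rw [pm_inv h1 h2, Fin.sum_univ_add]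
  simp only [blk_ll, blk_lr, pg_rr, pg_lr, pg_rl, zero_mul, Finset.sum_const_zero,
    add_zero, sub_zero, mul_zero]

lemma c_rll (a : Fin d) (i j : Fin n) :
    christoffel (prodFrame v w) (pm G H) (Fin.natAdd n a) (Fin.castAdd d i) (Fin.castAdd d j) y =
      0 := by
  unfold christoffel
  rw [pm_inv h1 h2, Fin.sum_univ_add]
  simp only [blk_rl, blk_rr, pg_ll', pg_lr, pg_rl, zero_mul, Finset.sum_const_zero,
    add_zero, sub_zero, mul_zero]

lemma c_rlr (a b : Fin d) (i : Fin n) :
    christoffel (prodFrame v w) (pm G H) (Fin.natAdd n a) (Fin.castAdd d i) (Fin.natAdd n b) y =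
      0 := by
  unfold christoffel
  rw [pm_inv h1 h2, Fin.sum_univ_add]
  simp only [blk_rl, blk_rr, pg_rr, pg_lr, pg_rl, zero_mul, Finset.sum_const_zero,
    add_zero, sub_zero, mul_zero]

lemma c_rrl (a b : Fin d) (i : Fin n) :
    christoffel (prodFrame v w) (pm G H) (Fin.natAdd n a) (Fin.natAdd n b) (Fin.castAdd d i) y =
      0 := by
  unfold christoffel
  rw [pm_inv h1 h2, Fin.sum_univ_add]
  simp only [blk_rl, blk_rr, pg_rr, pg_lr, pg_rl, zero_mul, Finset.sum_const_zero,
    add_zero, sub_zero, mul_zero, zero_add]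

lemma c_rrr (c a b : Fin d) :
    christoffel (prodFrame v w) (pm G H) (Fin.natAdd n c) (Fin.natAdd n a) (Fin.natAdd n b) y =
      christoffel w H c a b y.2 := by
  unfold christoffel
  rw [pm_inv h1 h2, Fin.sum_univ_add]
  simp only [blk_rl, blk_rr, pg_rr', zero_mul, Finset.sum_const_zero, zero_add]

end christ

/-! ### Ricci tensor -/

lemma ev2 {U : Set V} (hU : IsOpen U) {U' : Set W} (hU' : IsOpen U') {y : V × W} (hy : y.1 ∈ U)
    (hy' : y.2 ∈ U') : ∀ᶠ z : V × W in nhds y, z.1 ∈ U ∧ z.2 ∈ U' :=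
  ((hU.preimage continuous_fst).inter (hU'.preimage continuous_snd)).mem_nhds ⟨hy, hy'⟩

/-- RESULT: the Ricci tensor of a product -/
theorem ricci_pm {U : Set V} (hU : IsOpen U) (hdet : ∀ y ∈ U, IsUnit (G y).det)
    {U' : Set W} (hU' : IsOpen U') (hdet' : ∀ y ∈ U', IsUnit (H y).det)
    {y : V × W} (hy : y.1 ∈ U) (hy' : y.2 ∈ U') (I J : Fin (n + d)) :
    ricci (prodFrame v w) (pm G H) I J y =
      blk (fun i j => ricci v G i j y.1) (fun a b => ricci w H a b y.2) I J := by
  have h1 := hdet _ hy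
  have h2 := hdet' _ hy'
  have E := ev2 hU hU' hy hy'
  -- derivatives of the Christoffel symbols
  have p1 : ∀ k i j l, pd (prodFrame v w) (Fin.castAdd d l) (christoffel (prodFrame v w) (pm G H)
      (Fin.castAdd d k) (Fin.castAdd d i) (Fin.castAdd d j)) y = pd v l (christoffel v G k i j) y.1 := by
    intro k i j l
    have e : christoffel (prodFrame v w) (pm G H) (Fin.castAdd d k) (Fin.castAdd d i)
        (Fin.castAdd d j) =ᶠ[nhds y] (fun z => christoffel v G k i j z.1) :=
      E.mono fun z hz => c_lll (hdet _ hz.1) (hdet' _ hz.2) k i j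
    rw [pd_congr (prodFrame v w) (Fin.castAdd d l) e]
    exact pd1_l v w (christoffel v G k i j) y l
  have p1' : ∀ k i j a, pd (prodFrame v w) (Fin.natAdd n a) (christoffel (prodFrame v w) (pm G H)
      (Fin.castAdd d k) (Fin.castAdd d i) (Fin.castAdd d j)) y = 0 := by
    intro k i j a
    have e : christoffel (prodFrame v w) (pm G H) (Fin.castAdd d k) (Fin.castAdd d i)
        (Fin.castAdd d j) =ᶠ[nhds y] (fun z => christoffel v G k i j z.1) :=
      E.mono fun z hz => c_lll (hdet _ hz.1) (hdet' _ hz.2) k i j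
    rw [pd_congr (prodFrame v w) (Fin.natAdd n a) e]
    exact pd1_r v w (christoffel v G k i j) y a
  have q1 : ∀ c a b e, pd (prodFrame v w) (Fin.natAdd n e) (christoffel (prodFrame v w) (pm G H)
      (Fin.natAdd n c) (Fin.natAdd n a) (Fin.natAdd n b)) y = pd w e (christoffel w H c a b) y.2 := by
    intro c a b e
    have e' : christoffel (prodFrame v w) (pm G H) (Fin.natAdd n c) (Fin.natAdd n a)
        (Fin.natAdd n b) =ᶠ[nhds y] (fun z => christoffel w H c a b z.2) :=
      E.mono fun z hz => c_rrr (hdet _ hz.1) (hdet' _ hz.2) c a b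
    rw [pd_congr (prodFrame v w) (Fin.natAdd n e) e']
    exact pd2_r v w (christoffel w H c a b) y e
  have q1' : ∀ c a b i, pd (prodFrame v w) (Fin.castAdd d i) (christoffel (prodFrame v w) (pm G H)
      (Fin.natAdd n c) (Fin.natAdd n a) (Fin.natAdd n b)) y = 0 := by
    intro c a b i
    have e' : christoffel (prodFrame v w) (pm G H) (Fin.natAdd n c) (Fin.natAdd n a)
        (Fin.natAdd n b) =ᶠ[nhds y] (fun z => christoffel w H c a b z.2) :=
      E.mono fun z hz => c_rrr (hdet _ hz.1) (hdet' _ hz.2) c a b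
    rw [pd_congr (prodFrame v w) (Fin.castAdd d i) e']
    exact pd2_l v w (christoffel w H c a b) y i
  have p2 : ∀ k i a L, pd (prodFrame v w) L (christoffel (prodFrame v w) (pm G H)
      (Fin.castAdd d k) (Fin.castAdd d i) (Fin.natAdd n a)) y = 0 := by
    intro k i a L
    have e : christoffel (prodFrame v w) (pm G H) (Fin.castAdd d k) (Fin.castAdd d i)
        (Fin.natAdd n a) =ᶠ[nhds y] (fun z => 0) :=
      E.mono fun z hz => c_llr (hdet _ hz.1) (hdet' _ hz.2) k i a
    rw [pd_congr (prodFrame v w) L e]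
    exact pd_zero _ _ _
  have p3 : ∀ k i a L, pd (prodFrame v w) L (christoffel (prodFrame v w) (pm G H)
      (Fin.castAdd d k) (Fin.natAdd n a) (Fin.castAdd d i)) y = 0 := by
    intro k i a L
    have e : christoffel (prodFrame v w) (pm G H) (Fin.castAdd d k) (Fin.natAdd n a)
        (Fin.castAdd d i) =ᶠ[nhds y] (fun z => 0) :=
      E.mono fun z hz => c_lrl (hdet _ hz.1) (hdet' _ hz.2) k i a
    rw [pd_congr (prodFrame v w) L e]
    exact pd_zero _ _ _
  have p4 : ∀ k a b L, pd (prodFrame v w) L (christoffel (prodFrame v w) (pm G H)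
      (Fin.castAdd d k) (Fin.natAdd n a) (Fin.natAdd n b)) y = 0 := by
    intro k a b L
    have e : christoffel (prodFrame v w) (pm G H) (Fin.castAdd d k) (Fin.natAdd n a)
        (Fin.natAdd n b) =ᶠ[nhds y] (fun z => 0) :=
      E.mono fun z hz => c_lrr (hdet _ hz.1) (hdet' _ hz.2) k a b
    rw [pd_congr (prodFrame v w) L e]
    exact pd_zero _ _ _
  have p5 : ∀ a i j L, pd (prodFrame v w) L (christoffel (prodFrame v w) (pm G H)
      (Fin.natAdd n a) (Fin.castAdd d i) (Fin.castAdd d j)) y = 0 := by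
    intro a i j L
    have e : christoffel (prodFrame v w) (pm G H) (Fin.natAdd n a) (Fin.castAdd d i)
        (Fin.castAdd d j) =ᶠ[nhds y] (fun z => 0) :=
      E.mono fun z hz => c_rll (hdet _ hz.1) (hdet' _ hz.2) a i j
    rw [pd_congr (prodFrame v w) L e]
    exact pd_zero _ _ _
  have p6 : ∀ a b i L, pd (prodFrame v w) L (christoffel (prodFrame v w) (pm G H)
      (Fin.natAdd n a) (Fin.castAdd d i) (Fin.natAdd n b)) y = 0 := by
    intro a b i L
    have e : christoffel (prodFrame v w) (pm G H) (Fin.natAdd n a) (Fin.castAdd d i)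
        (Fin.natAdd n b) =ᶠ[nhds y] (fun z => 0) :=
      E.mono fun z hz => c_rlr (hdet _ hz.1) (hdet' _ hz.2) a b i
    rw [pd_congr (prodFrame v w) L e]
    exact pd_zero _ _ _
  have p7 : ∀ a b i L, pd (prodFrame v w) L (christoffel (prodFrame v w) (pm G H)
      (Fin.natAdd n a) (Fin.natAdd n b) (Fin.castAdd d i)) y = 0 := by
    intro a b i L
    have e : christoffel (prodFrame v w) (pm G H) (Fin.natAdd n a) (Fin.natAdd n b)
        (Fin.castAdd d i) =ᶠ[nhds y] (fun z => 0) :=
      E.mono fun z hz => c_rrl (hdet _ hz.1) (hdet' _ hz.2) a b i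
    rw [pd_congr (prodFrame v w) L e]
    exact pd_zero _ _ _
  unfold ricci
  refine Fin.addCases (fun i => ?_) (fun a => ?_) I <;>
  refine Fin.addCases (fun j => ?_) (fun b => ?_) J
  · simp only [Fin.sum_univ_add, p1, p1', q1, q1', p2, p3, p4, p5, p6, p7, c_lll h1 h2,
      c_llr h1 h2, c_lrl h1 h2, c_lrr h1 h2, c_rll h1 h2, c_rlr h1 h2, c_rrl h1 h2, c_rrr h1 h2,
      blk_ll, mul_zero, zero_mul, sub_zero, Finset.sum_const_zero, add_zero]
  · simp only [Fin.sum_univ_add, p1, p1', q1, q1', p2, p3, p4, p5, p6, p7, c_lll h1 h2,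
      c_llr h1 h2, c_lrl h1 h2, c_lrr h1 h2, c_rll h1 h2, c_rlr h1 h2, c_rrl h1 h2, c_rrr h1 h2,
      blk_lr, mul_zero, zero_mul, sub_zero, Finset.sum_const_zero, add_zero]
  · simp only [Fin.sum_univ_add, p1, p1', q1, q1', p2, p3, p4, p5, p6, p7, c_lll h1 h2,
      c_llr h1 h2, c_lrl h1 h2, c_lrr h1 h2, c_rll h1 h2, c_rlr h1 h2, c_rrl h1 h2, c_rrr h1 h2,
      blk_rl, mul_zero, zero_mul, sub_zero, Finset.sum_const_zero, add_zero]
  · simp only [Fin.sum_univ_add, p1, p1', q1, q1', p2, p3, p4, p5, p6, p7, c_lll h1 h2,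
      c_llr h1 h2, c_lrl h1 h2, c_lrr h1 h2, c_rll h1 h2, c_rlr h1 h2, c_rrl h1 h2, c_rrr h1 h2,
      blk_rr, mul_zero, zero_mul, sub_zero, Finset.sum_const_zero, add_zero, zero_add]

/-- RESULT: the scalar curvature of a product -/
theorem scal_pm {U : Set V} (hU : IsOpen U) (hdet : ∀ y ∈ U, IsUnit (G y).det)
    {U' : Set W} (hU' : IsOpen U') (hdet' : ∀ y ∈ U', IsUnit (H y).det)
    {y : V × W} (hy : y.1 ∈ U) (hy' : y.2 ∈ U') :
    ∑ I, ∑ J, (pm G H y)⁻¹ I J * ricci (prodFrame v w) (pm G H) I J y =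
      (∑ i, ∑ j, (G y.1)⁻¹ i j * ricci v G i j y.1) +
        ∑ a, ∑ b, (H y.2)⁻¹ a b * ricci w H a b y.2 := by
  simp only [ricci_pm hU hdet hU' hdet' hy hy', pm_inv (hdet _ hy) (hdet' _ hy'),
    Fin.sum_univ_add, blk_ll, blk_lr, blk_rl, blk_rr, mul_zero, Finset.sum_const_zero, add_zero,
    zero_add]

end Vale.Agent.P244.H109
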