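import Vale.Agent.P244.H109.Rate

set_option linter.all false

/-! # The solution of the conformal gauge system, with the exact size of the metric at the tip -/

open Set Filter
open scoped ContDiff Topology

namespace Vale.Agent.P244.H109

open Vale.Agent.P244.ST Vale.Agent.P244.ST.OpA Vale.Agent.P244.ST.JA

/-- the final assembly of the trapped solution, for an arbitrary property `P` -/
theorem coreP_of (hL1 : L1Statement) (hL3 : L3Statement) (hB1 : B1Statement) (hB2 : B2Statement)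
    (hQ : QStatement) (hS7 : S7Statement) (hM : MStatement) (hS6 : S6Statement)
    (hC1 : C1Statement) (P : Fn → Fn → Prop) (hC2 : ∀ g : ℝ → ℝ, IsBub g → Ev fun q =>
      ∀ w f : Fn, ConfSol 20 w f 1 → Qual w f 1 → rr w f 0 0 ≤ q.N →
      (∀ t₁ ∈ Ico (0 : ℝ) 1, Boot q g w f t₁) →
      (∀ t ∈ Ico (0 : ℝ) 1, ∀ x ∈ Ico (0 : ℝ) 1, q.rho0 / 16 ≤ yv w f t x → yv w f t x ≤ 400 →
        |uu w f t x - q.A t * ph 3 (yv w f t x)| ≤ Real.sqrt q.sg * q.A t) → P w f) :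
    ∃ w f : ℝ → ℝ → ℝ, ConfSol 20 w f 1 ∧ P w f := by
  obtain ⟨g, hg⟩ := hB1
  obtain ⟨q, hq, hB2, hS7, hM, hS6, hC1, hC2⟩ := ((ev_pos (K := 200) (by norm_num)).and
    ((hB2 g hg).and ((hS7 g hg).and ((hM g hg).and ((hS6 g hg).and
      ((hC1 g hg).and (hC2 g hg))))))).exists
  obtain ⟨w₀, f₀, hw₀, hf₀, hdata⟩ := hB2
  obtain ⟨Tm, w, f, hsol⟩ := exists_solFam hL1 hdata
  have hTm : ∀ b ∈ Bx, Tm b ∈ Ioc (0 : ℝ) 1 := fun b hb => (hsol b hb).time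
  have hconf : ∀ b ∈ Bx, ConfSol 20 (w b) (f b) (Tm b) := fun b hb => (hsol b hb).sol
  have hinit : ∀ b ∈ Bx, InitOK q g b (w b) (f b) := fun b hb => (hsol b hb).init
  have hqual : ∀ b ∈ Bx, Qual (w b) (f b) (Tm b) := fun b hb =>
    hQ g hg q b _ _ _ (hTm b hb).1 (hconf b hb) (hinit b hb)
  have hboot : ∀ b ∈ Bx, ∀ t₁ ∈ Ico 0 (Tm b),
      (∀ t ∈ Icc 0 t₁, ∀ i < 3, |gami q (w b) (f b) i t| ≤ q.sg) → Boot q g (w b) (f b) t₁ := by
    intro b hb t₁ ht₁ hlow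
    have hT1 := (hTm b hb).2
    have hT0 := (hTm b hb).1
    have hI := hinit b hb
    have hQb := hqual b hb
    have hCb := hconf b hb
    refine lemA_aux hg hq (by norm_num) hCb hQb hT1 hI.boot hI.equator hI.mode_main hI.en
      (fun i => Gam.sol_gami hT1 hCb hq.d0 hq.eps i) (Gam.sol_enU hT1 hCb hq.d0 hq.eps)
      (closedStep q g _ _ _ hq hg hT1 hCb hQb) (tipStep q g _ _ _ hq hg hT1 hCb hQb) ?_ ht₁ hlow
    intro t ht hBt
    have h7 := hS7 (w b) (f b) (Tm b) hT0 hT1 hCb hQb t ht hBt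
    have hMt := hM b (w b) (f b) (Tm b) hT0 hT1 hCb hQb hI t ht hBt h7
    have hSt := hS6 b (w b) (f b) (Tm b) hT0 hT1 hCb hQb hI t ht hBt
    exact ⟨hMt.1 t ⟨ht.1, le_rfl⟩, hMt.2 t ⟨ht.1, le_rfl⟩, hSt.1, hSt.2.1⟩
  have hsg := hq.sg
  have hcn : ∀ (b : Fin 3 → ℝ) (t : ℝ), ‖fun i : Fin 3 => gami q (w b) (f b) i t / q.sg‖ ≤ 1 →
      ∀ i < 3, |gami q (w b) (f b) i t| ≤ q.sg := by
    intro b t h i hi
    have h1 := (pi_norm_le_iff_of_nonneg (by norm_num)).1 h ⟨i, hi⟩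
    simp only [Real.norm_eq_abs, abs_div, abs_of_pos hsg] at h1
    rwa [div_le_one hsg] at h1
  obtain ⟨b, hb2, hLb, htr⟩ := shoot (k := 3) Tm
    (fun b t i => gami q (w b) (f b) i t / q.sg)
    (fun b hb => ⟨(hTm b (mem_Bx.1 hb)).1, (hTm b (mem_Bx.1 hb)).2⟩)
    (by
      intro b hb t ht0 ht
      rw [closedBall_eq]
      exact solFam_open hL3 hw₀ hf₀ hsol (mem_Bx.1 hb) ht0 ht)
    (by
      intro b hb i
      have h1 := (hinit b (mem_Bx.1 hb)).mode_low i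
      have h2 : gami q (w b) (f b) i 0 / q.sg - b i =
          (gami q (w b) (f b) i 0 - q.sg * b i) / q.sg := by
        field_simp
      rw [h2, abs_div, abs_of_pos hsg, div_le_iff₀ hsg]
      linarith only [h1])
    (by
      refine continuousOn_pi.2 fun i => ?_
      refine ((Gam.fam_gami hL3 hq.d0 hq.eps hw₀ hf₀ hsol i).div_const q.sg).mono ?_
      rintro z ⟨a1, a2, a3⟩
      exact ⟨mem_Bx.1 a1, a2, a3⟩)
    (by
      intro b hb hall
      have hb' := mem_Bx.1 hb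
      by_contra hne
      have hlt : Tm b < 1 := lt_of_le_of_ne (hTm b hb').2 hne
      have hBall : ∀ t₁ ∈ Ico 0 (Tm b), Boot q g (w b) (f b) t₁ := fun t₁ ht₁ =>
        hboot b hb' t₁ ht₁ fun t ht => hcn b t (hall t ht.1 (lt_of_le_of_lt ht.2 ht₁.2))
      obtain ⟨A, hA⟩ := hC1 (w b) (f b) (Tm b) (hTm b hb').1 hlt (hconf b hb') (hqual b hb')
        (hinit b hb').equator_le hBall (fun t ht => hS7 (w b) (f b) (Tm b) (hTm b hb').1 (hTm b hb').2 (hconf b hb')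
          (hqual b hb') t ht (hBall t ht) t ⟨ht.1, le_rfl⟩)
      rcases (hsol b hb').life with h | h
      · exact hne h
      · obtain ⟨t, ht, x, hx, h2⟩ := h A
        exact absurd (hA t ht x hx) (not_le.2 h2))
    (by
      intro b hb t ht0 ht hall i hi
      have hb' := mem_Bx.1 hb
      have hB := hboot b hb' t ⟨ht0, ht⟩ fun s hs => hcn b s (hall s hs.1 hs.2)
      have h6 := (hS6 b (w b) (f b) (Tm b) (hTm b hb').1 (hTm b hb').2 (hconf b hb')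
        (hqual b hb') (hinit b hb') t ⟨ht0, ht⟩ hB).2.2 i i.2 (by
          simp only [abs_div, abs_of_pos hsg] at hi
          rwa [div_eq_one_iff_eq hsg.ne'] at hi)
      filter_upwards [h6] with s hs
      rw [abs_div, abs_of_pos hsg, lt_div_iff₀ hsg]
      linarith only [hs])
  have hb' := mem_Bx.1 hb2
  have hC := hconf b hb'
  have hQb := hqual b hb'
  rw [hLb] at hC hQb
  have hBall : ∀ t₁ ∈ Ico (0 : ℝ) 1, Boot q g (w b) (f b) t₁ := fun t₁ ht₁ =>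
    hboot b hb' t₁ (by rwa [hLb]) fun t ht => hcn b t (htr t ht.1 (lt_of_le_of_lt ht.2 ht₁.2))
  have r1 := hC2 (w b) (f b) hC hQb (hinit b hb').equator_le hBall (fun t ht =>
    hS7 (w b) (f b) 1 one_pos le_rfl hC hQb t ht (hBall t ht) t ⟨ht.1, le_rfl⟩)
  exact ⟨w b, f b, hC, r1⟩

/-- the solution with the rate at the tip -/
theorem core_rate : ∃ w f : ℝ → ℝ → ℝ, ConfSol 20 w f 1 ∧
    (∃ C : ℝ, ∀ t ∈ Ico (0 : ℝ) 1, ∀ x ∈ Icc (-1 : ℝ) 1, |scal 20 (w t) (f t) x| ≤ C) ∧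
    ∃ L : ℝ, ∀ t ∈ Ico (0 : ℝ) 1, |f t 1 - 3 / kap * Real.log (1 - t)| ≤ L := by
  refine coreP_of LW.L1 LW.L3 BBridge.b1Statement BD.b2Statement qStatement SS.s7Statement
    mStatement SS.s6Statement (MC.c1_of M.m2Statement)
    (fun w f => (∃ C : ℝ, ∀ t ∈ Ico (0 : ℝ) 1, ∀ x ∈ Icc (-1 : ℝ) 1,
      |scal 20 (w t) (f t) x| ≤ C) ∧
      ∃ L : ℝ, ∀ t ∈ Ico (0 : ℝ) 1, |f t 1 - 3 / kap * Real.log (1 - t)| ≤ L) ?_
  intro g hg
  have h0 : C2Statement := C2.c2Statement M.m2Statement M.mbStatement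
  refine ((((h0 g hg).and (M.m2Statement g hg)).and M.mbStatement).and
    (ev_pos (K := 4) (by norm_num))).mono ?_
  rintro q ⟨⟨⟨h1, h2⟩, hbd⟩, hp⟩ w f h hQ hN hB hcl
  refine ⟨(h1 w f h hQ hN hB hcl).1, tip_rate hg hp h hQ hB ?_⟩
  have hFT : ∀ t ∈ Ico (0 : ℝ) 1, M.FT q g w f 1 t := fun t ht =>
    C2.ft_of h hQ hB (fun s hs => hbd w f s hs (hcl s hs)) ht
  intro t ht x hx hy
  exact (h2 w f 1 t (hFT t ht)).1 x hx hy

end Vale.Agent.P244.H109
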