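import Vale.Agent.P244.FlowDefs
import Vale.Agent.P244.H426.Defs

/-!
Definitions for products of Ricci flows: the product manifold `M × N`, the product frame, the
product `g ⊕ h` of two fields of bilinear forms, Einstein metrics, singular flows with bounded
scalar curvature.
-/

open scoped Manifold ContDiff
open Set Module

namespace Vale.Agent.P244.H109

open Vale.Agent.P244.Flow
open Vale.Agent.P244.H426 (metVal ricVal BoundedScalar)

/-- The unit sphere `S^m` in `ℝ^(m+1)`. -/
abbrev Sphere (m : ℕ) : Type :=
  Metric.sphere (0 : EuclideanSpace ℝ (Fin (m + 1))) 1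

theorem factFinrank (m : ℕ) :
    Fact (Module.finrank ℝ (EuclideanSpace ℝ (Fin (m + 1))) = m + 1) :=
  ⟨finrank_euclideanSpace_fin⟩

attribute [local instance] factFinrank

section Product

variable (V W M N : Type*) [NormedAddCommGroup V] [NormedSpace ℝ V]
  [NormedAddCommGroup W] [NormedSpace ℝ W] [TopologicalSpace M] [ChartedSpace V M]
  [TopologicalSpace N] [ChartedSpace W N]

/-- The product manifold structure of `M × N` (Mathlib's), modelled on `V × W`. -/
@[reducible] noncomputable def prodCharted : ChartedSpace (V × W) (M × N) :=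
  inferInstanceAs (ChartedSpace (ModelProd V W) (M × N))

/-- `M`, modelled on `V`, is a closed connected smooth manifold. -/
structure IsClosedManifold : Prop where
  smooth : IsManifold 𝓘(ℝ, V) ∞ M
  compact : CompactSpace M
  hausdorff : T2Space M
  connected : ConnectedSpace M

end Product

/-- The product manifold structure of `S^21 × S^20`, modelled on `ℝ^21 × ℝ^20`. -/
noncomputable instance chartedSpheres :
    ChartedSpace (EuclideanSpace ℝ (Fin 21) × EuclideanSpace ℝ (Fin 20)) (Sphere 21 × Sphere 20) :=
  prodCharted _ _ _ _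

section Tensors

variable {V : Type*} [NormedAddCommGroup V] [NormedSpace ℝ V] {n : ℕ}
  {M : Type*} [TopologicalSpace M] [ChartedSpace V M]
  {W : Type*} [NormedAddCommGroup W] [NormedSpace ℝ W] {d : ℕ}
  {N : Type*} [TopologicalSpace N] [ChartedSpace W N]

/-- The product frame `(v_i, 0)`, `(0, w_a)` of `V × W`. -/
def prodFrame (v : Fin n → V) (w : Fin d → W) : Fin (n + d) → V × W :=
  Fin.addCases (fun i => (v i, 0)) (fun a => (0, w a))

attribute [local instance 1100] prodCharted

/-- The product `g ⊕ h` on `M × N`: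
`(g ⊕ h)_(x,y)((u, u'), (w, w')) = g_x(u, w) + h_y(u', w')`. -/
noncomputable def prodTensor (g : Tensor V M) (h : Tensor W N) : Tensor (V × W) (M × N) :=
  fun x =>
    (show V →L[ℝ] V →L[ℝ] ℝ from g x.1).bilinearComp (ContinuousLinearMap.fst ℝ V W)
        (ContinuousLinearMap.fst ℝ V W) +
      (show W →L[ℝ] W →L[ℝ] ℝ from h x.2).bilinearComp (ContinuousLinearMap.snd ℝ V W)
        (ContinuousLinearMap.snd ℝ V W)

/-- `k` is a smooth Einstein metric on `N` with `Ric = c k`. -/
structure IsEinstein (w : Fin d → W) (k : Tensor W N) (c : ℝ) : Prop where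
  symm : ∀ x a b, val k x a b = val k x b a
  pos : ∀ x a, a ≠ 0 → 0 < val k x a a
  smooth : ∀ e ∈ atlas W N, ∀ i j, ContDiffOn ℝ ∞ (fun y : W => comp w k e y i j) e.target
  einstein : ∀ e ∈ atlas W N, ∀ y ∈ e.target, ∀ i j,
    ricci w (comp w k e) i j y = c * comp w k e y i j

/-- The family of metrics `(1 - 2 c t) k`. -/
noncomputable def einsteinFlow (k : Tensor W N) (c : ℝ) (t : ℝ) : Tensor W N :=
  fun x => (1 - 2 * c * t) • k x

/-- The exponent `α = 12 / (39 - √1209) = 2.837...`. -/
noncomputable def sizeExp : ℝ := 12 / (39 - Real.sqrt 1209)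

/-- The component `R^k_{i l j}` of the curvature tensor of the metric components `g`, i.e. the
`∂_k`-component of `R(∂_l, ∂_j) ∂_i`; contraction over `k = l` gives `ricci v g i j`. -/
noncomputable def riemann (v : Fin n → V) (g : V → Matrix (Fin n) (Fin n) ℝ) (k i l j : Fin n)
    (y : V) : ℝ :=
  pd v l (christoffel v g k i j) y - pd v j (christoffel v g k i l) y +
    ∑ m, (christoffel v g k l m y * christoffel v g m i j y -
      christoffel v g k j m y * christoffel v g m i l y)

/-- The sectional curvature of the plane spanned by `∂_i` and `∂_j`,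
`g(R(∂_i, ∂_j) ∂_j, ∂_i) / (g_ii g_jj - g_ij^2)`. -/
noncomputable def sectional (v : Fin n → V) (g : V → Matrix (Fin n) (Fin n) ℝ) (i j : Fin n)
    (y : V) : ℝ :=
  (∑ k, g y i k * riemann v g k j i j y) / (g y i i * g y j j - g y i j ^ 2)

/-- `g_t(∂_i, ∂_i)` at the point `x` is of the exact order `(T - t)^α`; here and below `∂_i` are
the coordinate vectors of the preferred chart at `x`. -/
def SizeRate (v : Fin n → V) (g : ℝ → Tensor V M) (T : ℝ) (x : M) (i : Fin n) : Prop :=
  ∃ A > 0, ∃ B > 0, ∀ t ∈ Ico 0 T,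
    A * (T - t) ^ sizeExp ≤ comp v (g t) (chartAt V x) (chartAt V x x) i i ∧
    comp v (g t) (chartAt V x) (chartAt V x x) i i ≤ B * (T - t) ^ sizeExp

/-- The sectional curvature at `x` of the plane spanned by `∂_i` and `∂_j` is of the exact order
`(T - t)^(-α)`. -/
def CurvatureRate (v : Fin n → V) (g : ℝ → Tensor V M) (T : ℝ) (x : M) (i j : Fin n) : Prop :=
  ∃ A > 0, ∃ B > 0, ∀ t ∈ Ico 0 T,
    A * (T - t) ^ (-sizeExp) ≤ sectional v (comp v (g t) (chartAt V x)) i j (chartAt V x x) ∧
    sectional v (comp v (g t) (chartAt V x)) i j (chartAt V x x) ≤ B * (T - t) ^ (-sizeExp)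

/-- For every `c < α / 2` the Ricci curvature `Ric_t(∂_i, ∂_i) / g_t(∂_i, ∂_i)` at `x` is larger
than `c / (T - t)` at times `t` arbitrarily close to `T`. -/
def RicciAbove (v : Fin n → V) (g : ℝ → Tensor V M) (T : ℝ) (x : M) (i : Fin n) : Prop :=
  ∀ c < sizeExp / 2, ∀ s < T, ∃ t ∈ Ico 0 T, s < t ∧
    c * comp v (g t) (chartAt V x) (chartAt V x x) i i <
      (T - t) * ricci v (comp v (g t) (chartAt V x)) i i (chartAt V x x)

/-- For every `c < α / (2 (n - 1))` there are times `t` arbitrarily close to `T` and tangent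
vectors `a` at `x` with `Ric_t(a, a) < - c g_t(a, a) / (T - t)`. -/
def RicciBelow (v : Fin n → V) (g : ℝ → Tensor V M) (T : ℝ) (x : M) : Prop :=
  ∀ c : ℝ, ((n : ℝ) - 1) * c < sizeExp / 2 → ∀ s < T, ∃ t ∈ Ico 0 T, s < t ∧
    ∃ a : Fin n → ℝ, (T - t) * ricVal v (g t) x a < -c * metVal v (g t) x a

/-- A Ricci flow on `M` for `0 ≤ t < T` whose scalar curvature is bounded but which does not
extend past `T`; moreover, at some point `x`, for two different coordinate vectors `u = ∂_i`,
`w = ∂_j`, `g_t(u, u)` is of the exact order `(T - t)^α`, the sectional curvature of the plane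
spanned by `u` and `w` is of the exact order `(T - t)^(-α)`, and the Ricci curvature at `x` is
larger than `c / (T - t)` in the direction `u`, for every `c < α / 2`, and smaller than
`-c / (T - t)` in some direction, for every `c < α / (2 (n - 1))`, at times `t` arbitrarily close
to `T`. -/
structure IsSingularFlow (v : Fin n → V) (g : ℝ → Tensor V M) (T : ℝ) : Prop where
  flow : IsRicciFlow v g T
  bounded : BoundedScalar v g T
  maximal : ¬ ExtendsPast v g T
  rates : ∃ (x : M) (i j : Fin n), i ≠ j ∧ SizeRate v g T x i ∧ CurvatureRate v g T x i j ∧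
    RicciAbove v g T x i ∧ RicciBelow v g T x

/-- The product of the flow `g(t)`, `0 ≤ t < T`, on `M` with any Ricci flow `h(t)`, `0 ≤ t < T`,
with bounded scalar curvature, on any nonempty manifold `N`, in particular with the flow
`(1 - 2 c t) k` of an Einstein metric `k` on `N`, is a singular flow on `M × N`, which is a closed
manifold if `N` is. -/
def HasSingularProducts (v : Fin n → V) (g : ℝ → Tensor V M) (T : ℝ) : Prop :=
  ∀ (d : ℕ) (W : Type) [NormedAddCommGroup W] [NormedSpace ℝ W] (w : Basis (Fin d) ℝ W)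
    (N : Type) [TopologicalSpace N] [ChartedSpace W N] [IsManifold 𝓘(ℝ, W) ∞ N] [Nonempty N],
    (IsClosedManifold W N → IsClosedManifold (V × W) (M × N)) ∧
    (∀ h : ℝ → Tensor W N, IsRicciFlow w h T → BoundedScalar w h T →
      IsSingularFlow (prodFrame v w) (fun t => prodTensor (g t) (h t)) T) ∧
    ∀ (k : Tensor W N) (c : ℝ), IsEinstein w k c → 2 * c * T < 1 →
      IsSingularFlow (prodFrame v w) (fun t => prodTensor (g t) (einsteinFlow k c t)) T

/-- `M` is a closed connected manifold and carries, for every `0 < T < ∞`, a singular flow for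
`0 ≤ t < T`, all of whose products are singular flows. -/
def CarriesSingularFlows (v : Fin n → V) (M : Type*) [TopologicalSpace M] [ChartedSpace V M] :
    Prop :=
  IsClosedManifold V M ∧
    ∀ T > 0, ∃ g : ℝ → Tensor V M, IsSingularFlow v g T ∧ HasSingularProducts v g T

end Tensors

end Vale.Agent.P244.H109
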