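import Vale.Agent.P244.H109.Coord

set_option linter.all false

/-! # Product of two Ricci flows on manifolds -/

open scoped Manifold ContDiff Topology
open Set Module

namespace Vale.Agent.P244.H109

open Vale.Agent.P244.GeoP (gAt dsym comp_eq_gAt mdiff_symm' dsym_injective isUnit_comp slice_smooth
  ricci_congr)
open Vale.Agent.P244.Geo (blk blk_ll blk_lr blk_rl blk_rr)

variable {V : Type*} [NormedAddCommGroup V] [NormedSpace ℝ V] {n : ℕ}
  {M : Type*} [TopologicalSpace M] [ChartedSpace V M]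
  {W : Type*} [NormedAddCommGroup W] [NormedSpace ℝ W] {d : ℕ}
  {N : Type*} [TopologicalSpace N] [ChartedSpace W N]

attribute [local instance 10] prodCharted

theorem prod_manifold [IsManifold 𝓘(ℝ, V) ∞ M] [IsManifold 𝓘(ℝ, W) ∞ N] :
    IsManifold 𝓘(ℝ, V × W) ∞ (M × N) := by
  have h : IsManifold (𝓘(ℝ, V).prod 𝓘(ℝ, W)) ∞ (M × N) := IsManifold.prod _ _
  rw [← modelWithCornersSelf_prod] at h
  exact h

theorem mem_prod_atlas {e : OpenPartialHomeomorph (M × N) (V × W)}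
    (he : e ∈ atlas (V × W) (M × N)) : ∃ e1 ∈ atlas V M, ∃ e2 ∈ atlas W N,
      e.target = e1.target ×ˢ e2.target ∧
      (∀ y : V × W, e.symm y = (e1.symm y.1, e2.symm y.2)) := by
  obtain ⟨e1, h1, e2, h2, rfl⟩ := he
  exact ⟨e1, h1, e2, h2, rfl, fun y => rfl⟩

theorem mfderiv_prod_symm [IsManifold 𝓘(ℝ, V) ∞ M] [IsManifold 𝓘(ℝ, W) ∞ N]
    {e1 : OpenPartialHomeomorph M V} (h1 : e1 ∈ atlas V M)
    {e2 : OpenPartialHomeomorph N W} (h2 : e2 ∈ atlas W N) {y : V × W} (hy : y.1 ∈ e1.target)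
    (hy2 : y.2 ∈ e2.target) {e : OpenPartialHomeomorph (M × N) (V × W)}
    (he : ∀ y : V × W, e.symm y = (e1.symm y.1, e2.symm y.2)) (u : V × W) :
    mfderiv 𝓘(ℝ, V × W) 𝓘(ℝ, V × W) e.symm y u =
      ((mfderiv 𝓘(ℝ, V) 𝓘(ℝ, V) e1.symm y.1 u.1 : V),
        (mfderiv 𝓘(ℝ, W) 𝓘(ℝ, W) e2.symm y.2 u.2 : W)) := by
  have h3 := mfderiv_prodMap (p := y) (mdiff_symm' h1 hy) (mdiff_symm' h2 hy2)
  have h4 : (e.symm : V × W → M × N) = Prod.map e1.symm e2.symm := by
    funext z; exact he z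
  rw [h4]
  rw [← modelWithCornersSelf_prod, chartedSpaceSelf_prod] at h3
  have h5 := congrArg (fun L : (V × W) →L[ℝ] (V × W) => L u) h3
  exact h5

theorem val_prod (g : Flow.Tensor V M) (h : Flow.Tensor W N) (x : M × N) (a b : V × W) :
    gAt (prodTensor g h) x a b = gAt g x.1 a.1 b.1 + gAt h x.2 a.2 b.2 := rfl

theorem val_prod_symm [IsManifold 𝓘(ℝ, V) ∞ M] [IsManifold 𝓘(ℝ, W) ∞ N]
    {e1 : OpenPartialHomeomorph M V} (h1 : e1 ∈ atlas V M)
    {e2 : OpenPartialHomeomorph N W} (h2 : e2 ∈ atlas W N) {y : V × W} (hy : y.1 ∈ e1.target)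
    (hy2 : y.2 ∈ e2.target) {e : OpenPartialHomeomorph (M × N) (V × W)}
    (he : ∀ y : V × W, e.symm y = (e1.symm y.1, e2.symm y.2))
    (g : Flow.Tensor V M) (h : Flow.Tensor W N) (a b : V × W) :
    gAt (prodTensor g h) (e.symm y) (dsym e y a) (dsym e y b) =
      gAt g (e1.symm y.1) (dsym e1 y.1 a.1) (dsym e1 y.1 b.1) +
        gAt h (e2.symm y.2) (dsym e2 y.2 a.2) (dsym e2 y.2 b.2) := by
  have a1 : dsym e y a = (dsym e1 y.1 a.1, dsym e2 y.2 a.2) :=
    mfderiv_prod_symm h1 h2 hy hy2 he a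
  have a2 : dsym e y b = (dsym e1 y.1 b.1, dsym e2 y.2 b.2) :=
    mfderiv_prod_symm h1 h2 hy hy2 he b
  rw [a1, a2, he y]
  rfl

/-- components of the product metric in a product chart -/
theorem comp_prod [IsManifold 𝓘(ℝ, V) ∞ M] [IsManifold 𝓘(ℝ, W) ∞ N] (v : Fin n → V)
    (w : Fin d → W) {e1 : OpenPartialHomeomorph M V} (h1 : e1 ∈ atlas V M)
    {e2 : OpenPartialHomeomorph N W} (h2 : e2 ∈ atlas W N) {y : V × W} (hy : y.1 ∈ e1.target)
    (hy2 : y.2 ∈ e2.target) {e : OpenPartialHomeomorph (M × N) (V × W)}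
    (he : ∀ y : V × W, e.symm y = (e1.symm y.1, e2.symm y.2))
    (g : Flow.Tensor V M) (h : Flow.Tensor W N) :
    Flow.comp (prodFrame v w) (prodTensor g h) e y =
      pm (Flow.comp v g e1) (Flow.comp w h e2) y := by
  ext I J
  rw [comp_eq_gAt, val_prod_symm h1 h2 hy hy2 he]
  refine Fin.addCases (fun i => ?_) (fun i => ?_) I <;>
  refine Fin.addCases (fun j => ?_) (fun j => ?_) J
  · rw [pm_ll, pf_left, pf_left]
    simp only [map_zero, add_zero]
    rfl
  · rw [pm_lr, pf_left, pf_right]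
    simp only [map_zero, add_zero]
    simp
  · rw [pm_rl, pf_left, pf_right]
    simp only [map_zero, add_zero]
    simp
  · rw [pm_rr, pf_right, pf_right]
    simp only [map_zero, zero_add]
    rfl

theorem comp_event [IsManifold 𝓘(ℝ, V) ∞ M] [IsManifold 𝓘(ℝ, W) ∞ N] (v : Fin n → V)
    (w : Fin d → W) {e1 : OpenPartialHomeomorph M V} (h1 : e1 ∈ atlas V M)
    {e2 : OpenPartialHomeomorph N W} (h2 : e2 ∈ atlas W N) {y : V × W} (hy : y.1 ∈ e1.target)
    (hy2 : y.2 ∈ e2.target) {e : OpenPartialHomeomorph (M × N) (V × W)}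
    (he : ∀ y : V × W, e.symm y = (e1.symm y.1, e2.symm y.2))
    (g : Flow.Tensor V M) (h : Flow.Tensor W N) :
    Flow.comp (prodFrame v w) (prodTensor g h) e =ᶠ[𝓝 y]
      pm (Flow.comp v g e1) (Flow.comp w h e2) := by
  have h3 : e1.target ×ˢ e2.target ∈ 𝓝 y :=
    (e1.open_target.prod e2.open_target).mem_nhds ⟨hy, hy2⟩
  filter_upwards [h3] with z hz
  exact comp_prod v w h1 h2 hz.1 hz.2 he g h

/-- RESULT: the product of two Ricci flows is a Ricci flow -/
theorem prod_flow [IsManifold 𝓘(ℝ, V) ∞ M] [IsManifold 𝓘(ℝ, W) ∞ N] (v : Basis (Fin n) ℝ V)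
    (w : Basis (Fin d) ℝ W) {g : ℝ → Flow.Tensor V M} {h : ℝ → Flow.Tensor W N} {T : ℝ}
    (hg : Flow.IsRicciFlow v g T) (hh : Flow.IsRicciFlow w h T) :
    Flow.IsRicciFlow (prodFrame v w) (fun t => prodTensor (g t) (h t)) T where
  symm t ht x a b := by
    have h1 : gAt (g t) x.1 a.1 b.1 = gAt (g t) x.1 b.1 a.1 := hg.symm t ht x.1 a.1 b.1
    have h2 : gAt (h t) x.2 a.2 b.2 = gAt (h t) x.2 b.2 a.2 := hh.symm t ht x.2 a.2 b.2
    exact congrArg₂ (fun a b : ℝ => a + b) h1 h2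
  pos t ht x a ha := by
    have key : ∀ a : V × W, a ≠ 0 → 0 < gAt (g t) x.1 a.1 a.1 + gAt (h t) x.2 a.2 a.2 := by
      intro a ha
      have h1 : ∀ z : V, z ≠ 0 → 0 < gAt (g t) x.1 z z := fun z hz => hg.pos t ht x.1 z hz
      have h2 : ∀ z : W, z ≠ 0 → 0 < gAt (h t) x.2 z z := fun z hz => hh.pos t ht x.2 z hz
      have h1' : ∀ z : V, 0 ≤ gAt (g t) x.1 z z := by
        intro z
        rcases eq_or_ne z 0 with rfl | hz
        · simp
        · exact (h1 z hz).le
      have h2' : ∀ z : W, 0 ≤ gAt (h t) x.2 z z := by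
        intro z
        rcases eq_or_ne z 0 with rfl | hz
        · simp
        · exact (h2 z hz).le
      by_cases h3 : a.1 = 0
      · have h4 : a.2 ≠ 0 := fun h4 => ha (Prod.ext h3 h4)
        exact add_pos_of_nonneg_of_pos (h1' _) (h2 _ h4)
      · exact add_pos_of_pos_of_nonneg (h1 _ h3) (h2' _)
    exact key a ha
  smooth e he I J := by
    obtain ⟨e1, h1, e2, h2, ht, hs⟩ := mem_prod_atlas he
    have key : ∀ z ∈ Ico 0 T ×ˢ e.target,
        Flow.comp (prodFrame v w) (prodTensor (g z.1) (h z.1)) e z.2 I J =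
        pm (Flow.comp v (g z.1) e1) (Flow.comp w (h z.1) e2) z.2 I J := by
      intro z hz
      rw [ht] at hz
      rw [comp_prod (v : Fin n → V) (w : Fin d → W) h1 h2 hz.2.1 hz.2.2 hs (g z.1) (h z.1)]
    refine ContDiffOn.congr ?_ key
    rw [ht]
    refine Fin.addCases (fun i => ?_) (fun i => ?_) I <;>
    refine Fin.addCases (fun j => ?_) (fun j => ?_) J
    · simp only [pm_ll]
      have h4 := hg.smooth e1 h1 i j
      have h3 : ContDiffOn ℝ ∞ (fun z : ℝ × (V × W) => ((z.1, z.2.1) : ℝ × V))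
          (Ico 0 T ×ˢ (e1.target ×ˢ e2.target)) := by fun_prop
      exact h4.comp h3 (fun z hz => ⟨hz.1, hz.2.1⟩)
    · simp only [pm_lr]; exact contDiffOn_const
    · simp only [pm_rl]; exact contDiffOn_const
    · simp only [pm_rr]
      have h4 := hh.smooth e2 h2 i j
      have h3 : ContDiffOn ℝ ∞ (fun z : ℝ × (V × W) => ((z.1, z.2.2) : ℝ × W))
          (Ico 0 T ×ˢ (e1.target ×ˢ e2.target)) := by fun_prop
      exact h4.comp h3 (fun z hz => ⟨hz.1, hz.2.2⟩)
  flow e he y hy I J t ht := by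
    obtain ⟨e1, h1, e2, h2, htg, hs⟩ := mem_prod_atlas he
    rw [htg] at hy
    have key : ∀ r, Flow.comp (prodFrame v w) (prodTensor (g r) (h r)) e y I J =
        pm (Flow.comp v (g r) e1) (Flow.comp w (h r) e2) y I J := by
      intro r
      rw [comp_prod (v : Fin n → V) (w : Fin d → W) h1 h2 hy.1 hy.2 hs (g r) (h r)]
    have hric : Flow.ricci (prodFrame v w)
        (Flow.comp (prodFrame v w) (prodTensor (g t) (h t)) e) I J y =
        blk (fun i j => Flow.ricci v (Flow.comp v (g t) e1) i j y.1)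
          (fun a b => Flow.ricci w (Flow.comp w (h t) e2) a b y.2) I J := by
      rw [ricci_congr (prodFrame v w)
        (comp_event (v : Fin n → V) (w : Fin d → W) h1 h2 hy.1 hy.2 hs (g t) (h t))]
      exact ricci_pm e1.open_target (fun z hz => isUnit_comp v (g t) (hg.pos t ht) h1 hz)
        e2.open_target (fun z hz => isUnit_comp w (h t) (hh.pos t ht) h2 hz) hy.1 hy.2 I J
    simp only [key]
    rw [hric]
    refine Fin.addCases (fun i => ?_) (fun i => ?_) I <;>
    refine Fin.addCases (fun j => ?_) (fun j => ?_) J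
    · simp only [pm_ll, blk_ll]
      exact hg.flow e1 h1 y.1 hy.1 i j t ht
    · simp only [pm_lr, blk_lr, mul_zero]; exact hasDerivWithinAt_const _ _ _
    · simp only [pm_rl, blk_rl, mul_zero]; exact hasDerivWithinAt_const _ _ _
    · simp only [pm_rr, blk_rr]
      exact hh.flow e2 h2 y.2 hy.2 i j t ht

/-- RESULT: the scalar curvature of a product -/
theorem prod_scal [IsManifold 𝓘(ℝ, V) ∞ M] [IsManifold 𝓘(ℝ, W) ∞ N] (v : Basis (Fin n) ℝ V)
    (w : Basis (Fin d) ℝ W) {g : ℝ → Flow.Tensor V M} {h : ℝ → Flow.Tensor W N} {T : ℝ}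
    (hg : Flow.IsRicciFlow v g T) (hh : Flow.IsRicciFlow w h T) {t : ℝ} (ht : t ∈ Ico 0 T)
    (x : M × N) :
    Flow.scalarCurvature (prodFrame v w) (prodTensor (g t) (h t)) x =
      Flow.scalarCurvature v (g t) x.1 + Flow.scalarCurvature w (h t) x.2 := by
  have hs : ∀ y : V × W, (chartAt (V × W) x).symm y =
      ((chartAt V x.1).symm y.1, (chartAt W x.2).symm y.2) := fun y => rfl
  have hx : (chartAt (V × W) x) x = (chartAt V x.1 x.1, chartAt W x.2 x.2) := rfl
  have hm1 : ((chartAt (V × W) x) x).1 ∈ (chartAt V x.1).target := by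
    rw [hx]; exact mem_chart_target V x.1
  have hm2 : ((chartAt (V × W) x) x).2 ∈ (chartAt W x.2).target := by
    rw [hx]; exact mem_chart_target W x.2
  have h1 := comp_event (v : Fin n → V) (w : Fin d → W) (chart_mem_atlas V x.1)
    (chart_mem_atlas W x.2) hm1 hm2 hs (g t) (h t)
  have h2 := scal_pm (v := v) (w := w) (chartAt V x.1).open_target
    (fun z hz => isUnit_comp v (g t) (hg.pos t ht) (chart_mem_atlas V x.1) hz)
    (chartAt W x.2).open_target
    (fun z hz => isUnit_comp w (h t) (hh.pos t ht) (chart_mem_atlas W x.2) hz) hm1 hm2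
  unfold Flow.scalarCurvature
  rw [h1.eq_of_nhds]
  simp only [ricci_congr (prodFrame v w) h1]
  rw [h2, hx]

end Vale.Agent.P244.H109
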