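import Vale.Agent.P244.H109.Scale
import Vale.Agent.P244.H109.Core

set_option linter.all false

/-! # The singular flow on `S^21 × S^20` and its products -/

open scoped Manifold ContDiff Topology
open Set Module

namespace Vale.Agent.P244.H109

open Vale.Agent.P244.Flow (Tensor val comp pd christoffel ricci scalarCurvature IsRicciFlow
  ExtendsPast std)
open Vale.Agent.P244.GeoP (connected_sph degen_tens fbasis fbasis_eq isUnit_comp)
open Vale.Agent.P244.Geo (EE hh frame)
open Vale.Agent.P244.GeoM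

theorem closed_prod {V : Type*} [NormedAddCommGroup V] [NormedSpace ℝ V]
    {M : Type*} [TopologicalSpace M] [ChartedSpace V M]
    {W : Type*} [NormedAddCommGroup W] [NormedSpace ℝ W]
    {N : Type*} [TopologicalSpace N] [ChartedSpace W N] (hM : IsClosedManifold V M)
    (hN : IsClosedManifold W N) :
    @IsClosedManifold (V × W) (M × N) _ _ _ (prodCharted V W M N) := by
  have h1 := hM.smooth
  have h2 := hN.smooth
  have h3 := hM.compact
  have h4 := hN.compact
  have h5 := hM.hausdorff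
  have h6 := hN.hausdorff
  have h7 := hM.connected
  have h8 := hN.connected
  exact @IsClosedManifold.mk (V × W) (M × N) _ _ _ (prodCharted V W M N) prod_manifold
    inferInstance inferInstance inferInstance

theorem closed_spheres : IsClosedManifold
    (EuclideanSpace ℝ (Fin 21) × EuclideanSpace ℝ (Fin 20)) (Sphere 21 × Sphere 20) := by
  have h1 : ConnectedSpace (Sphere 21) := connected_sph 21 (by norm_num)
  have h2 : ConnectedSpace (Sphere 20) := connected_sph 20 (by norm_num)
  exact ⟨instIsManifold 21 20, inferInstance, inferInstance, inferInstance⟩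

/-- the frame of `ℝ^21 × ℝ^20` is a basis -/
theorem basis_spheres : ∃ v : Basis (Fin (21 + 20)) ℝ
    (EuclideanSpace ℝ (Fin 21) × EuclideanSpace ℝ (Fin 20)),
    (v : Fin (21 + 20) → EuclideanSpace ℝ (Fin 21) × EuclideanSpace ℝ (Fin 20)) =
      prodFrame (std 21) (std 20) := ⟨fbasis 21 20, fbasis_eq 21 20⟩

/-- the size of `tens` in the direction of the second factor and the sectional curvature in two
such directions, at the pole of the first factor -/
theorem size_tens {m p : ℕ} (hp : 1 < p) :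
    ∃ x0 : Mfd m p, ∃ i j : Fin (m + p), i ≠ j ∧
      ∃ r > 0, ∀ P : Vale.Agent.P244.Geo.Prof, P.Good →
      comp (frame m p) (tens m p P.A P.B P.C) (chartAt (EE m × EE p) x0)
        (chartAt (EE m × EE p) x0 x0) i i = P.C 1 * r ∧
      sectional (frame m p) (comp (frame m p) (tens m p P.A P.B P.C) (chartAt (EE m × EE p) x0))
        i j (chartAt (EE m × EE p) x0 x0) = (P.C 1)⁻¹ := by
  let x0 : Mfd m p := (⟨EuclideanSpace.single (Fin.last m) (1 : ℝ), by simp⟩,
    ⟨EuclideanSpace.single (Fin.last p) (1 : ℝ), by simp⟩)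
  set e := chartAt (EE m × EE p) x0 with he
  have hatl : e ∈ atlas (EE m × EE p) (Mfd m p) := chart_mem_atlas _ x0
  obtain ⟨b, c, hbc, ht, hh1, hcomp⟩ := comp_eq_G hatl
  set y0 := e x0 with hy0
  have hx0 : e.symm y0 = x0 := e.left_inv (mem_chart_source (EE m × EE p) x0)
  have hheight : hh b c y0.1 = 1 := by
    rw [← hh1, hx0]
    simp [height, pos1, x0]
  have hr : 0 < Vale.Agent.P244.Geo.rho y0.2 ^ 2 := by
    have := Vale.Agent.P244.Geo.rho_pos y0.2
    positivity
  have hne : (⟨0, by omega⟩ : Fin p) ≠ ⟨1, hp⟩ := by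
    intro h
    have := congrArg Fin.val h
    norm_num at this
  refine ⟨x0, Fin.natAdd m ⟨0, by omega⟩, Fin.natAdd m ⟨1, hp⟩,
    ?_, Vale.Agent.P244.Geo.rho y0.2 ^ 2, hr, fun P hP => ?_⟩
  · intro h
    have := congrArg Fin.val h
    simp at this
  · rw [← he, ← hy0, hcomp]
    refine ⟨?_, sectional_G_tip hP hbc y0 hheight hne⟩
    unfold Vale.Agent.P244.Geo.G
    rw [Vale.Agent.P244.Geo.blk_rr, hheight, Vale.Agent.P244.Geo.dl_self, mul_one]

lemma two_mul_kap : 2 * (3 / Vale.Agent.P244.ST.kap) = sizeExp := by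
  have h1 := kap_pos
  have h2 : Vale.Agent.P244.ST.kap = (39 - Real.sqrt 1209) / 2 := rfl
  have h3 : (39 - Real.sqrt 1209) ≠ 0 := by
    intro h
    rw [h2, h] at h1
    norm_num at h1
  unfold sizeExp
  rw [h2]
  field_simp
  norm_num

theorem base_flow : ∃ g : ℝ → Tensor (EuclideanSpace ℝ (Fin 21) × EuclideanSpace ℝ (Fin 20))
      (Sphere 21 × Sphere 20),
    IsRicciFlow (prodFrame (std 21) (std 20)) g 1 ∧
    (∃ C : ℝ, ∀ t ∈ Ico (0 : ℝ) 1, ∀ x,
      |scalarCurvature (prodFrame (std 21) (std 20)) (g t) x| ≤ C) ∧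
    Rate (prodFrame (std 21) (std 20)) g 1 := by
  obtain ⟨w, f, S, ⟨C, hC⟩, L, htip⟩ := core_rate
  obtain ⟨η, H⟩ := exists_flo one_pos (sm_Jt (p := 20)
    (S.smooth_w : Vale.Agent.P244.GeoM.Sm 1 w) (S.smooth_f : Vale.Agent.P244.GeoM.Sm 1 f))
  refine ⟨fun t => tens (20 + 1) 20 (AA w (Jt 20 w f) η t) (BB w (Jt 20 w f) η t) (CC f η t),
    ?_, ⟨C, ?_⟩, ?_⟩
  · exact H.isRicciFlow S
  · intro t ht x
    have h1 := H.scalarCurvature_eq S ht x
    refine le_trans (le_of_eq (congrArg abs h1)) ?_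
    refine closure_bound (H.cont_scalP S ht) (fun h hh => ?_) _ (Flo.height_mem H S x)
    rw [H.scal_eq S ht hh]
    exact hC t ht _ (H.mem t ht h (Ioo_subset_Icc_self hh))
  · obtain ⟨x, i, j, hij, r, hr, hs⟩ := size_tens (m := 20 + 1) (p := 20) (by norm_num)
    have hgood : ∀ t ∈ Ico (0 : ℝ) 1, (Flo.prof w f (Jt 20 w f) η t).Good := fun t ht =>
      H.good S.smooth_w S.smooth_f ht
    have h1 : ∀ t ∈ Ico (0 : ℝ) 1, comp (prodFrame (std 21) (std 20)) (tens (20 + 1) 20
        (AA w (Jt 20 w f) η t) (BB w (Jt 20 w f) η t) (CC f η t))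
        (chartAt (EE (20 + 1) × EE 20) x) (chartAt (EE (20 + 1) × EE 20) x x) i i =
        Real.exp (2 * f t 1) * r := by
      intro t ht
      refine ((hs (Flo.prof w f (Jt 20 w f) η t) (hgood t ht)).1).trans ?_
      show CC f η t 1 * r = _
      rw [CC, H.eta_one S ht]
    have h1' : ∀ t ∈ Ico (0 : ℝ) 1, sectional (prodFrame (std 21) (std 20))
        (comp (prodFrame (std 21) (std 20)) (tens (20 + 1) 20
        (AA w (Jt 20 w f) η t) (BB w (Jt 20 w f) η t) (CC f η t))
        (chartAt (EE (20 + 1) × EE 20) x)) i j (chartAt (EE (20 + 1) × EE 20) x x) =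
        Real.exp (-(2 * f t 1)) := by
      intro t ht
      refine ((hs (Flo.prof w f (Jt 20 w f) η t) (hgood t ht)).2).trans ?_
      show (CC f η t 1)⁻¹ = _
      rw [CC, H.eta_one S ht, Real.exp_neg]
    have h3 : ∀ t ∈ Ico (0 : ℝ) 1, (1 - t) ^ sizeExp =
        Real.exp (2 * (3 / Vale.Agent.P244.ST.kap * Real.log (1 - t))) := by
      intro t ht
      rw [Real.rpow_def_of_pos (by linarith [ht.2]), ← two_mul_kap]
      congr 1
      ring
    have h3' : ∀ t ∈ Ico (0 : ℝ) 1, (1 - t) ^ (-sizeExp) =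
        Real.exp (-(2 * (3 / Vale.Agent.P244.ST.kap * Real.log (1 - t)))) := by
      intro t ht
      rw [Real.rpow_def_of_pos (by linarith [ht.2]), ← two_mul_kap]
      congr 1
      ring
    refine ⟨x, i, j, hij, ⟨Real.exp (-(2 * L)) * r, by positivity,
      Real.exp (2 * L) * r, by positivity, fun t ht => ?_⟩, Real.exp (-(2 * L)),
      Real.exp_pos _, Real.exp (2 * L), Real.exp_pos _, fun t ht => ?_⟩
    · have h2 := abs_le.1 (htip t ht)
      have h4 : Real.exp (-(2 * L)) * (1 - t) ^ sizeExp ≤ Real.exp (2 * f t 1) := by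
        rw [h3 t ht, ← Real.exp_add]
        exact Real.exp_le_exp.2 (by linarith [h2.1])
      have h5 : Real.exp (2 * f t 1) ≤ Real.exp (2 * L) * (1 - t) ^ sizeExp := by
        rw [h3 t ht, ← Real.exp_add]
        exact Real.exp_le_exp.2 (by linarith [h2.2])
      constructor
      · calc Real.exp (-(2 * L)) * r * (1 - t) ^ sizeExp
            = (Real.exp (-(2 * L)) * (1 - t) ^ sizeExp) * r := by ring
          _ ≤ Real.exp (2 * f t 1) * r := mul_le_mul_of_nonneg_right h4 hr.le
          _ = _ := (h1 t ht).symm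
      · calc _ = Real.exp (2 * f t 1) * r := h1 t ht
          _ ≤ (Real.exp (2 * L) * (1 - t) ^ sizeExp) * r := mul_le_mul_of_nonneg_right h5 hr.le
          _ = _ := by ring
    · have h2 := abs_le.1 (htip t ht)
      constructor
      · refine le_of_le_of_eq ?_ (h1' t ht).symm
        rw [h3' t ht, ← Real.exp_add]
        exact Real.exp_le_exp.2 (by linarith [h2.2])
      · refine le_of_eq_of_le (h1' t ht) ?_
        rw [h3' t ht, ← Real.exp_add]
        exact Real.exp_le_exp.2 (by linarith [h2.1])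

/-- the singular flow for `0 ≤ t < T` -/
theorem base_flow' {T : ℝ} (hT : 0 < T) :
    ∃ g : ℝ → Tensor (EuclideanSpace ℝ (Fin 21) × EuclideanSpace ℝ (Fin 20))
      (Sphere 21 × Sphere 20),
    IsRicciFlow (prodFrame (std 21) (std 20)) g T ∧
    (∃ C : ℝ, ∀ t ∈ Ico (0 : ℝ) T, ∀ x,
      |scalarCurvature (prodFrame (std 21) (std 20)) (g t) x| ≤ C) ∧
    Rate (prodFrame (std 21) (std 20)) g T := by
  obtain ⟨g, h1, h2, h3⟩ := base_flow
  obtain ⟨v, hv⟩ := basis_spheres
  have hm := closed_spheres.smooth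
  rw [← hv] at h1 h3
  have h2' : ∃ C : ℝ, ∀ t ∈ Ico (0 : ℝ) 1, ∀ x, |scalarCurvature v (g t) x| ≤ C := by
    rw [hv]; exact h2
  obtain ⟨a1, a2, a3⟩ := resc_singular v hT h1 h2' h3
  rw [mul_one] at a1 a2 a3
  rw [hv] at a1 a2 a3
  exact ⟨resc T g, a1, a2, a3⟩

section Prod

variable {V : Type*} [NormedAddCommGroup V] [NormedSpace ℝ V] {n : ℕ}
  {M : Type*} [TopologicalSpace M] [ChartedSpace V M]
  {W : Type*} [NormedAddCommGroup W] [NormedSpace ℝ W] {d : ℕ}
  {N : Type*} [TopologicalSpace N] [ChartedSpace W N]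

attribute [local instance 10] prodCharted

/-- the product basis -/
theorem prod_basis (v : Basis (Fin n) ℝ V) (w : Basis (Fin d) ℝ W) :
    ∃ b : Basis (Fin (n + d)) ℝ (V × W), (b : Fin (n + d) → V × W) = prodFrame v w := by
  refine ⟨(v.prod w).reindex finSumFinEquiv, ?_⟩
  funext I
  refine Fin.addCases (fun i => ?_) (fun i => ?_) I
  · simp [prodFrame]
  · simp [prodFrame]

theorem prod_rate [IsManifold 𝓘(ℝ, V) ∞ M] [IsManifold 𝓘(ℝ, W) ∞ N] [Nonempty N]
    (v : Basis (Fin n) ℝ V) (w : Basis (Fin d) ℝ W) {g : ℝ → Tensor V M} {h : ℝ → Tensor W N}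
    {T : ℝ} (hg : IsRicciFlow v g T) (hh : IsRicciFlow w h T)
    (hr : Rate (v : Fin n → V) g T) :
    Rate (prodFrame v w) (fun t => prodTensor (g t) (h t)) T := by
  obtain ⟨x, i, j, hij, ⟨A, hA, B, hB, hr⟩, A', hA', B', hB', hr'⟩ := hr
  obtain ⟨z⟩ := ‹Nonempty N›
  have he := chart_mem_atlas V x
  have h2 := chart_mem_atlas W z
  have hy := mem_chart_target V x
  have hz := mem_chart_target W z
  have hij' : Fin.castAdd d i ≠ Fin.castAdd d j := fun h' => hij (Fin.castAdd_injective _ _ h')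
  refine ⟨(x, z), Fin.castAdd d i, Fin.castAdd d j, hij', ⟨A, hA, B, hB, fun t ht => ?_⟩,
    A', hA', B', hB', fun t ht => ?_⟩
  · have h3 : comp (prodFrame v w) (prodTensor (g t) (h t)) (chartAt (V × W) (x, z))
        (chartAt (V × W) (x, z) (x, z)) =
        pm (comp v (g t) (chartAt V x)) (comp w (h t) (chartAt W z))
          (chartAt V x x, chartAt W z z) :=
      comp_prod v w he h2 (y := (chartAt V x x, chartAt W z z)) hy hz (fun _ => rfl) (g t) (h t)
    have h4 : comp (prodFrame v w) (prodTensor (g t) (h t)) (chartAt (V × W) (x, z))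
        (chartAt (V × W) (x, z) (x, z)) (Fin.castAdd d i) (Fin.castAdd d i) =
        comp v (g t) (chartAt V x) (chartAt V x x) i i := by
      rw [h3, pm_ll]
    rw [h4]
    exact hr t ht
  · have h3 : comp (prodFrame v w) (prodTensor (g t) (h t)) (chartAt (V × W) (x, z))
        =ᶠ[𝓝 (chartAt V x x, chartAt W z z)]
        pm (comp v (g t) (chartAt V x)) (comp w (h t) (chartAt W z)) :=
      comp_event v w he h2 (y := (chartAt V x x, chartAt W z z)) hy hz (fun _ => rfl) (g t) (h t)
    have h4 : sectional (prodFrame v w) (comp (prodFrame v w) (prodTensor (g t) (h t))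
        (chartAt (V × W) (x, z))) (Fin.castAdd d i) (Fin.castAdd d j)
        (chartAt V x x, chartAt W z z) =
        sectional v (comp v (g t) (chartAt V x)) i j (chartAt V x x) := by
      rw [sectional_congr _ h3]
      exact sectional_pm (chartAt V x).open_target
        (fun a ha => isUnit_comp v (g t) (hg.pos t ht) he ha) (chartAt W z).open_target
        (fun a ha => isUnit_comp w (h t) (hh.pos t ht) h2 ha)
        (y := (chartAt V x x, chartAt W z z)) hy hz i j
    have h5 : sectional (prodFrame v w) (comp (prodFrame v w) (prodTensor (g t) (h t))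
        (chartAt (V × W) (x, z))) (Fin.castAdd d i) (Fin.castAdd d j)
        (chartAt (V × W) (x, z) (x, z)) =
        sectional v (comp v (g t) (chartAt V x)) i j (chartAt V x x) := h4
    rw [h5]
    exact hr' t ht

/-- RESULT: the product of a singular flow and a flow with bounded scalar curvature -/
theorem prod_singular [IsManifold 𝓘(ℝ, V) ∞ M] [IsManifold 𝓘(ℝ, W) ∞ N] [Nonempty N]
    (v : Basis (Fin n) ℝ V) (w : Basis (Fin d) ℝ W) {g : ℝ → Tensor V M} {h : ℝ → Tensor W N}
    {T : ℝ} (hT : 0 < T) (hg : IsRicciFlow v g T)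
    (hb : ∃ C : ℝ, ∀ t ∈ Ico 0 T, ∀ x, |scalarCurvature v (g t) x| ≤ C)
    (hr : Rate (v : Fin n → V) g T) (hh : IsRicciFlow w h T)
    (hb' : ∃ C : ℝ, ∀ t ∈ Ico 0 T, ∀ x, |scalarCurvature w (h t) x| ≤ C) :
    IsSingularFlow (prodFrame v w) (fun t => prodTensor (g t) (h t)) T := by
  obtain ⟨b, hbas⟩ := prod_basis v w
  have hm : IsManifold 𝓘(ℝ, V × W) ∞ (M × N) := prod_manifold
  have h1 := prod_flow v w hg hh
  have h2 : ∃ C : ℝ, ∀ t ∈ Ico 0 T, ∀ x : M × N,
      |scalarCurvature (prodFrame v w) (prodTensor (g t) (h t)) x| ≤ C := by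
    obtain ⟨C, hC⟩ := hb
    obtain ⟨C', hC'⟩ := hb'
    refine ⟨C + C', fun t ht x => ?_⟩
    rw [prod_scal v w hg hh ht x]
    exact (abs_add_le _ _).trans (add_le_add (hC t ht _) (hC' t ht _))
  have h3 : Rate (prodFrame v w) (fun t => prodTensor (g t) (h t)) T := prod_rate v w hg hh hr
  rw [← hbas] at h1 h2 h3 ⊢
  exact isSingularFlow_of_rate b hT h1 h2 h3

end Prod

end Vale.Agent.P244.H109
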