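import Vale.Agent.P244.Bd3.B17

set_option linter.all false

/-! # The exact size of the metric at the tip -/

open Set Filter
open scoped Topology ContDiff

namespace Vale.Agent.P244.H109

open Vale.Agent.P244.ST

noncomputable section

/-- `Λ(u) = (1/κ) log sinh u + (1/2 - 1/κ) log cosh u` -/
def Lam (u : ℝ) : ℝ :=
  1 / kap * Real.log (Real.sinh u) + (1 / 2 - 1 / kap) * Real.log (Real.cosh u)

lemma kap_pos : 0 < kap := by
  have := M2.kap_gt
  linarith only [this]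

lemma inv_kap_lt : 1 / kap < 1 / 2 := by
  rw [one_div_lt_one_div kap_pos (by norm_num)]
  have := M2.kap_gt
  linarith only [this]

lemma inv_kap_gt : 2 / 5 < 1 / kap := by
  rw [lt_div_iff₀ kap_pos]
  have := M2.kap_lt
  linarith only [this]

lemma hasDerivAt_Lam {u : ℝ} (hu : 0 < u) :
    HasDerivAt Lam (1 / kap / Real.tanh u + (1 / 2 - 1 / kap) * Real.tanh u) u := by
  have hs := Real.sinh_pos_iff.2 hu
  have hc := Real.cosh_pos u
  have h1 := ((Real.hasDerivAt_sinh u).log hs.ne').const_mul (1 / kap)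
  have h2 := ((Real.hasDerivAt_cosh u).log hc.ne').const_mul (1 / 2 - 1 / kap)
  refine (h1.add h2).congr_deriv ?_
  rw [Real.tanh_eq_sinh_div_cosh, div_div_eq_mul_div]
  ring

lemma exists_bub_bound {g : ℝ → ℝ} (hg : IsBub g) : ∃ C ≥ 0, ∀ u > 0,
    |1 / kap / Real.tanh u + (1 / 2 - 1 / kap) * Real.tanh u - 1 / g u| ≤
      C * (1 - Real.tanh u ^ 2) := by
  obtain ⟨C1, hC1⟩ := hg.at_zero
  obtain ⟨C2, hC2⟩ := hg.at_tip
  refine ⟨4 * (|C1| + |C2| + 1), by positivity, fun u hu => ?_⟩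
  have k0 := kap_pos
  have k1 := inv_kap_lt
  have k2 := inv_kap_gt
  have hT0 : 0 < Real.tanh u := M2.tanh_pos hu
  have hT1 : Real.tanh u < 1 := Real.tanh_lt_one u
  have h1 := hg.lower u hu
  have h2 := hg.upper u hu
  have h3 := hC1 u hu
  have h4 := hC2 u hu
  set T := Real.tanh u with hT
  set G := g u with hG
  have hG0 : 0 < G := by linarith
  have a1 : C1 ≤ |C1| := le_abs_self _
  have a2 : C2 ≤ |C2| := le_abs_self _
  have a3 : 0 ≤ |C1| := abs_nonneg _
  have a4 : 0 ≤ |C2| := abs_nonneg _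
  have hT2 : 0 < 1 - T ^ 2 := by nlinarith
  have hGT : 2 * T * T ≤ T * G := by nlinarith
  rcases le_total T (1 / 2) with hh | hh
  · have e1 : 1 / kap / T + (1 / 2 - 1 / kap) * T - 1 / G =
        (1 / 2 - 1 / kap) * T - (kap * T - G) / (kap * (T * G)) := by
      field_simp
      ring
    have e2 : 0 ≤ (kap * T - G) / (kap * (T * G)) :=
      div_nonneg (by linarith) (by positivity)
    have e3 : (kap * T - G) / (kap * (T * G)) ≤ |C1| := by
      rw [div_le_iff₀ (by positivity)]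
      have q1 : kap * T - G ≤ |C1| * T ^ 3 :=
        h3.trans (mul_le_mul_of_nonneg_right a1 (by positivity))
      have q2 : T ^ 3 ≤ kap * (T * G) := by
        have := M2.kap_gt
        nlinarith [mul_pos k0 (mul_pos hT0 hG0), sq_nonneg T, mul_pos hT0 hT0]
      exact q1.trans (mul_le_mul_of_nonneg_left q2 a3)
    have e4 : 0 ≤ (1 / 2 - 1 / kap) * T := mul_nonneg (by linarith) hT0.le
    have e5 : (1 / 2 - 1 / kap) * T ≤ 1 := by nlinarith
    have e6 : 3 / 4 ≤ 1 - T ^ 2 := by nlinarith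
    rw [e1, abs_le]
    constructor <;> nlinarith
  · have e1 : 1 / kap / T + (1 / 2 - 1 / kap) * T - 1 / G =
        (G - 2 * T) / (2 * (T * G)) - (1 / 2 - 1 / kap) * ((1 - T ^ 2) / T) := by
      field_simp
      ring
    have e2 : 0 ≤ (G - 2 * T) / (2 * (T * G)) := div_nonneg (by linarith) (by positivity)
    have e3 : (G - 2 * T) / (2 * (T * G)) ≤ |C2| * (1 - T ^ 2) := by
      rw [div_le_iff₀ (by positivity)]
      have q1 : G - 2 * T ≤ |C2| * (1 - T ^ 2) :=
        h4.trans (mul_le_mul_of_nonneg_right a2 hT2.le)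
      have q2 : 1 ≤ 2 * (T * G) := by nlinarith
      have q3 : 0 ≤ |C2| * (1 - T ^ 2) := by positivity
      nlinarith
    have e4 : (1 - T ^ 2) / T ≤ 2 * (1 - T ^ 2) := by
      rw [div_le_iff₀ hT0]
      nlinarith
    have e5 : 0 ≤ (1 - T ^ 2) / T := by positivity
    have e6 : 0 ≤ (1 / 2 - 1 / kap) * ((1 - T ^ 2) / T) := mul_nonneg (by linarith) e5
    have e7 : (1 / 2 - 1 / kap) * ((1 - T ^ 2) / T) ≤ 1 - T ^ 2 := by nlinarith
    rw [e1, abs_le]
    have q0 : 0 ≤ |C1| * (1 - T ^ 2) := by positivity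
    have q1 : 0 ≤ |C2| * (1 - T ^ 2) := by positivity
    have q2 : 4 * (|C1| + |C2| + 1) * (1 - T ^ 2) =
        4 * (|C1| * (1 - T ^ 2)) + 4 * (|C2| * (1 - T ^ 2)) + 4 * (1 - T ^ 2) := by ring
    rw [q2]
    constructor <;> linarith only [q0, q1, e2, e3, e6, e7, hT2]

/-- the quantity `ρ + Λ(u)` is almost constant -/
theorem almost_const {g : ℝ → ℝ} {C K x₀ x₁ : ℝ} {ρ ρ' U e : ℝ → ℝ} (hg : IsBub g)
    (hC : 0 ≤ C) (hC' : ∀ u > 0, |1 / kap / Real.tanh u + (1 / 2 - 1 / kap) * Real.tanh u - 1 / g u| ≤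
      C * (1 - Real.tanh u ^ 2)) (hK : 0 ≤ K) (hx : x₀ ≤ x₁)
    (hρ : ∀ x ∈ Icc x₀ x₁, HasDerivAt ρ (ρ' x) x)
    (hU : ∀ x ∈ Icc x₀ x₁, HasDerivAt U (-(ρ' x) * (g (U x) * (1 - e x))) x)
    (hneg : ∀ x ∈ Icc x₀ x₁, ρ' x < 0) (hU0 : ∀ x ∈ Icc x₀ x₁, 0 < U x)
    (he : ∀ x ∈ Icc x₀ x₁, |e x| ≤ K * Real.exp (ρ x)) (he1 : ∀ x ∈ Icc x₀ x₁, |e x| ≤ 1) :
    |(ρ x₁ + Lam (U x₁)) - (ρ x₀ + Lam (U x₀))| ≤ C + K * Real.exp (ρ x₀) := by
  have hgp : ∀ x ∈ Icc x₀ x₁, 0 < g (U x) := fun x hx => by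
    have h1 := hg.lower _ (hU0 x hx)
    have h2 := M2.tanh_pos (hU0 x hx)
    linarith only [h1, h2]
  -- the derivative of `S = ρ + Λ(U)`
  have hS : ∀ x ∈ Icc x₀ x₁, HasDerivAt (fun x => ρ x + Lam (U x))
      (ρ' x + (1 / kap / Real.tanh (U x) + (1 / 2 - 1 / kap) * Real.tanh (U x)) *
        (-(ρ' x) * (g (U x) * (1 - e x)))) x := fun x hx =>
    (hρ x hx).add ((hasDerivAt_Lam (hU0 x hx)).comp x (hU x hx))
  have hTn : ∀ x ∈ Icc x₀ x₁, HasDerivAt (fun x => C * Real.tanh (U x))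
      (C * ((1 - Real.tanh (U x) ^ 2) * (-(ρ' x) * (g (U x) * (1 - e x))))) x := fun x hx =>
    ((PureF.hasDerivAt_tanh (U x)).comp x (hU x hx)).const_mul C
  have hEx : ∀ x ∈ Icc x₀ x₁, HasDerivAt (fun x => K * Real.exp (ρ x))
      (K * (Real.exp (ρ x) * ρ' x)) x := fun x hx => ((hρ x hx).exp).const_mul K
  -- the bound for the derivative
  have hb : ∀ x ∈ Icc x₀ x₁, |ρ' x + (1 / kap / Real.tanh (U x) +
      (1 / 2 - 1 / kap) * Real.tanh (U x)) * (-(ρ' x) * (g (U x) * (1 - e x)))| ≤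
      C * ((1 - Real.tanh (U x) ^ 2) * (-(ρ' x) * (g (U x) * (1 - e x)))) -
        K * (Real.exp (ρ x) * ρ' x) := by
    intro x hx
    have h1 := hgp x hx
    have h2 := hneg x hx
    have h3 := he x hx
    have h4 := abs_le.1 (he1 x hx)
    have h5 := hC' _ (hU0 x hx)
    have hW : 0 ≤ -(ρ' x) * (g (U x) * (1 - e x)) :=
      mul_nonneg (by linarith only [h2]) (mul_nonneg h1.le (by linarith only [h4]))
    have e1 : ρ' x + (1 / kap / Real.tanh (U x) + (1 / 2 - 1 / kap) * Real.tanh (U x)) *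
        (-(ρ' x) * (g (U x) * (1 - e x))) =
        ρ' x * e x + (1 / kap / Real.tanh (U x) + (1 / 2 - 1 / kap) * Real.tanh (U x) -
          1 / g (U x)) * (-(ρ' x) * (g (U x) * (1 - e x))) := by
      field_simp
      ring
    rw [e1]
    refine (abs_add_le _ _).trans ?_
    rw [abs_mul, abs_mul, abs_of_nonneg hW, abs_of_neg h2]
    have h6 := mul_le_mul_of_nonneg_right h5 hW
    have h7 := mul_le_mul_of_nonneg_left h3 (by linarith only [h2] : 0 ≤ -(ρ' x))
    nlinarith only [h6, h7]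
  -- monotonicity
  have hm1 : MonotoneOn (fun x => (ρ x + Lam (U x)) + (C * Real.tanh (U x) - K * Real.exp (ρ x)))
      (Icc x₀ x₁) := by
    have hd : ∀ x ∈ Icc x₀ x₁, HasDerivAt
        (fun x => (ρ x + Lam (U x)) + (C * Real.tanh (U x) - K * Real.exp (ρ x)))
        ((ρ' x + (1 / kap / Real.tanh (U x) + (1 / 2 - 1 / kap) * Real.tanh (U x)) *
          (-(ρ' x) * (g (U x) * (1 - e x)))) +
          (C * ((1 - Real.tanh (U x) ^ 2) * (-(ρ' x) * (g (U x) * (1 - e x)))) -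
            K * (Real.exp (ρ x) * ρ' x))) x := fun x hx =>
      (hS x hx).add ((hTn x hx).sub (hEx x hx))
    refine monotoneOn_of_deriv_nonneg (convex_Icc _ _)
      (fun x hx => (hd x hx).continuousAt.continuousWithinAt)
      (fun x hx => (hd x (interior_subset hx)).differentiableAt.differentiableWithinAt)
      (fun x hx => ?_)
    rw [(hd x (interior_subset hx)).deriv]
    have := abs_le.1 (hb x (interior_subset hx))
    linarith only [this.1]
  have hm2 : AntitoneOn (fun x => (ρ x + Lam (U x)) - (C * Real.tanh (U x) - K * Real.exp (ρ x)))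
      (Icc x₀ x₁) := by
    have hd : ∀ x ∈ Icc x₀ x₁, HasDerivAt
        (fun x => (ρ x + Lam (U x)) - (C * Real.tanh (U x) - K * Real.exp (ρ x)))
        ((ρ' x + (1 / kap / Real.tanh (U x) + (1 / 2 - 1 / kap) * Real.tanh (U x)) *
          (-(ρ' x) * (g (U x) * (1 - e x)))) -
          (C * ((1 - Real.tanh (U x) ^ 2) * (-(ρ' x) * (g (U x) * (1 - e x)))) -
            K * (Real.exp (ρ x) * ρ' x))) x := fun x hx =>
      (hS x hx).sub ((hTn x hx).sub (hEx x hx))
    refine antitoneOn_of_deriv_nonpos (convex_Icc _ _)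
      (fun x hx => (hd x hx).continuousAt.continuousWithinAt)
      (fun x hx => (hd x (interior_subset hx)).differentiableAt.differentiableWithinAt)
      (fun x hx => ?_)
    rw [(hd x (interior_subset hx)).deriv]
    have := abs_le.1 (hb x (interior_subset hx))
    linarith only [this.2]
  have l0 : x₀ ∈ Icc x₀ x₁ := ⟨le_rfl, hx⟩
  have l1 : x₁ ∈ Icc x₀ x₁ := ⟨hx, le_rfl⟩
  have m1 := hm1 l0 l1 hx
  have m2 := hm2 l0 l1 hx
  simp only at m1 m2
  have t0 := M2.tanh_pos (hU0 x₀ l0)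
  have t1 := M2.tanh_pos (hU0 x₁ l1)
  have t2 : Real.tanh (U x₁) < 1 := Real.tanh_lt_one _
  have c1 : C * Real.tanh (U x₁) ≤ C := mul_le_of_le_one_right hC t2.le
  have c2 : 0 ≤ C * Real.tanh (U x₀) := mul_nonneg hC t0.le
  have c3 : 0 ≤ K * Real.exp (ρ x₁) := mul_nonneg hK (Real.exp_pos _).le
  rw [abs_le]
  constructor <;> linarith only [m1, m2, c1, c2, c3]

/-- `Λ(u) - u/2` is bounded for `u ≥ 1` -/
lemma Lam_large {u : ℝ} (hu : 1 ≤ u) : |Lam u - u / 2| ≤ 2 := by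
  have k0 := kap_pos
  have k1 := inv_kap_lt
  have k2 := inv_kap_gt
  have e0 := Real.exp_pos u
  have e1 : Real.exp (-u) ≤ Real.exp u / 2 := by
    have h1 := Real.add_one_le_exp u
    have h2 : 2 ≤ Real.exp u := by linarith
    have h3 : Real.exp (-u) * Real.exp u = 1 := by rw [← Real.exp_add, neg_add_cancel, Real.exp_zero]
    have h4 : 0 < Real.exp (-u) := Real.exp_pos _
    nlinarith
  have e2 : 0 < Real.exp (-u) := Real.exp_pos _
  have s1 : Real.exp u / 4 ≤ Real.sinh u := by rw [Real.sinh_eq]; linarith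
  have s2 : Real.sinh u ≤ Real.exp u := by rw [Real.sinh_eq]; linarith
  have c1 : Real.exp u / 4 ≤ Real.cosh u := by rw [Real.cosh_eq]; linarith
  have c2 : Real.cosh u ≤ Real.exp u := by rw [Real.cosh_eq]; linarith
  have l4 : Real.log 4 ≤ 2 := by
    have h1 : Real.log 4 = 2 * Real.log 2 := by
      rw [show (4 : ℝ) = 2 ^ 2 by norm_num, Real.log_pow]; norm_num
    rw [h1]
    have := Real.log_two_lt_d9
    linarith
  have aux : ∀ z : ℝ, Real.exp u / 4 ≤ z → z ≤ Real.exp u → u - 2 ≤ Real.log z ∧ Real.log z ≤ u := by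
    intro z h1 h2
    have hz : 0 < z := by linarith
    constructor
    · have h3 := Real.log_le_log (by positivity) h1
      rw [Real.log_div e0.ne' (by norm_num), Real.log_exp] at h3
      linarith
    · have h3 := Real.log_le_log hz h2
      rwa [Real.log_exp] at h3
  obtain ⟨a1, a2⟩ := aux _ s1 s2
  obtain ⟨b1, b2⟩ := aux _ c1 c2
  have hL : Lam u - u / 2 = 1 / kap * (Real.log (Real.sinh u) - u) +
      (1 / 2 - 1 / kap) * (Real.log (Real.cosh u) - u) := by
    unfold Lam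
    ring
  have d1 : 0 < 1 / kap := by positivity
  have d2 : 0 < 1 / 2 - 1 / kap := by linarith
  rw [hL, abs_le]
  constructor <;> nlinarith

/-- `Λ(u)` at a point with `tanh u ≈ sinh u ≈ T₀` -/
lemma Lam_small {u A : ℝ} (hA : 0 < A) (h1 : 9 / 10 * A ≤ Real.tanh u)
    (h2 : Real.sinh u ≤ 6 / 5 * A) : |Lam u - 1 / kap * Real.log A| ≤ 1 := by
  have k0 := kap_pos
  have k1 := inv_kap_lt
  have k2 := inv_kap_gt
  have ht : 0 < Real.tanh u := by nlinarith
  have hc := Real.cosh_pos u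
  have e1 : Real.tanh u * Real.cosh u = Real.sinh u := by
    rw [Real.tanh_eq_sinh_div_cosh]
    field_simp
  have hc1 := Real.one_le_cosh u
  have hs : 0 < Real.sinh u := by rw [← e1]; positivity
  have hts : Real.tanh u ≤ Real.sinh u := by nlinarith
  have hc2 : Real.cosh u ≤ 4 / 3 := by
    by_contra h
    push Not at h
    nlinarith [mul_lt_mul_of_pos_left h ht, mul_le_mul_of_nonneg_right h1 hc.le]
  have a1 : Real.log (9 / 10) + Real.log A ≤ Real.log (Real.sinh u) := by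
    rw [← Real.log_mul (by norm_num) hA.ne']
    exact Real.log_le_log (by positivity) (h1.trans hts)
  have a2 : Real.log (Real.sinh u) ≤ Real.log (6 / 5) + Real.log A := by
    rw [← Real.log_mul (by norm_num) hA.ne']
    exact Real.log_le_log hs h2
  have b1 : 0 ≤ Real.log (Real.cosh u) := Real.log_nonneg hc1
  have b2 : Real.log (Real.cosh u) ≤ 1 / 3 := by
    have := Real.log_le_sub_one_of_pos hc
    linarith
  have n1 : -(1 / 5) ≤ Real.log (9 / 10) := by
    have h := Real.log_le_sub_one_of_pos (show (0 : ℝ) < 10 / 9 by norm_num)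
    have h' : Real.log (9 / 10) = -Real.log (10 / 9) := by
      rw [← Real.log_inv]
      norm_num
    rw [h']
    linarith
  have n2 : Real.log (6 / 5) ≤ 1 / 5 := by
    have h := Real.log_le_sub_one_of_pos (show (0 : ℝ) < 6 / 5 by norm_num)
    linarith
  have d1 : 0 < 1 / kap := by positivity
  have d2 : 0 < 1 / 2 - 1 / kap := by linarith
  have hL : Lam u - 1 / kap * Real.log A = 1 / kap * (Real.log (Real.sinh u) - Real.log A) +
      (1 / 2 - 1 / kap) * Real.log (Real.cosh u) := by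
    unfold Lam
    ring
  rw [hL, abs_le]
  constructor <;> nlinarith

lemma T0_pos {q : Par} {t : ℝ} (hp : ParPos 4 q) (ht : t ∈ Ico (0 : ℝ) 1) : 0 < q.T0 t := by
  have hτ : 0 < tau t := by unfold tau; linarith only [ht.2]
  have h1 := hp.eps
  have h2 := hp.rho0
  unfold Par.T0 Par.A
  positivity

lemma kapp_pos : 0 < M.kapp := by
  have := kap_pos
  unfold M.kapp
  positivity

lemma kapp_aa : M.kapp * aa ≤ 1 := by
  have := M2.kap_lt
  unfold M.kapp aa
  linarith only [this]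

/-- the bound for `e` in region I -/
lemma ee_bound {q : Par} {g : ℝ → ℝ} {w f : Fn} {t x : ℝ} (hp : ParPos 4 q)
    (ht : t ∈ Ico (0 : ℝ) 1) (hF : M.FI q g w f t x) (hy : yv w f t x ≤ q.rho0) :
    |ee g w f t x| ≤ 6 / 5 * q.B * q.rho0 / Real.sqrt (tau t) * Real.exp (rho w f t x) := by
  have hτ : 0 < tau t := by unfold tau; linarith only [ht.2]
  have hs := Real.sqrt_pos.2 hτ
  have hT := T0_pos hp ht
  have hr0 := hp.rho0
  have hBp : 0 < q.B := by linarith only [hp.B]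
  have hy0 : 0 < yv w f t x := div_pos (Real.exp_pos _) hs
  have hu := hF.u_pos
  have ht0 := M2.tanh_pos hu
  have hc1 := Real.one_le_cosh (uu w f t x)
  have e1 : Real.tanh (uu w f t x) * Real.cosh (uu w f t x) = Real.sinh (uu w f t x) := by
    rw [Real.tanh_eq_sinh_div_cosh]
    field_simp
  have hts : Real.tanh (uu w f t x) ≤ Real.sinh (uu w f t x) := by
    rw [← e1]
    exact le_mul_of_one_le_right ht0.le hc1
  have hz : 1 ≤ q.rho0 / yv w f t x := by rwa [le_div_iff₀ hy0, one_mul]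
  have h1 : Real.tanh (uu w f t x) / q.T0 t ≤ 6 / 5 * (q.rho0 / yv w f t x) ^ M.kapp := by
    rw [div_le_iff₀ hT]
    refine (hts.trans hF.sinh_le).trans (le_of_eq ?_)
    ring
  have ha : 0 < aa := by unfold aa; norm_num
  have ha1 : aa ≤ 1 := by unfold aa; norm_num
  have h2 : (Real.tanh (uu w f t x) / q.T0 t) ^ aa ≤ 6 / 5 * (q.rho0 / yv w f t x) := by
    refine (Real.rpow_le_rpow (div_pos ht0 hT).le h1 ha.le).trans ?_
    rw [Real.mul_rpow (by norm_num) (Real.rpow_nonneg (by linarith only [hz]) _),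
      ← Real.rpow_mul (by linarith only [hz])]
    have h3 : (6 / 5 : ℝ) ^ aa ≤ 6 / 5 := Real.rpow_le_self_of_one_le (by norm_num) ha1
    have h4 : (q.rho0 / yv w f t x) ^ (M.kapp * aa) ≤ q.rho0 / yv w f t x :=
      Real.rpow_le_self_of_one_le hz kapp_aa
    exact mul_le_mul h3 h4 (Real.rpow_nonneg (by linarith only [hz]) _) (by norm_num)
  have h5 : Real.cosh (uu w f t x) ^ (-(1 - aa)) ≤ 1 :=
    Real.rpow_le_one_of_one_le_of_nonpos hc1 (by linarith only [ha1])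
  have h6 : 0 ≤ Real.cosh (uu w f t x) ^ (-(1 - aa)) := Real.rpow_nonneg (by linarith only [hc1]) _
  refine hF.e_le.trans ?_
  have e2 : M.eb q w f t x = q.B * (yv w f t x) ^ 2 *
      ((Real.tanh (uu w f t x) / q.T0 t) ^ aa * Real.cosh (uu w f t x) ^ (-(1 - aa))) := by
    unfold M.eb Par.fb yv
    rw [div_pow, Real.sq_sqrt hτ.le]
    ring
  have e3 : 6 / 5 * q.B * q.rho0 / Real.sqrt (tau t) * Real.exp (rho w f t x) =
      q.B * (yv w f t x) ^ 2 * (6 / 5 * (q.rho0 / yv w f t x)) := by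
    have : yv w f t x = Real.exp (rho w f t x) / Real.sqrt (tau t) := rfl
    have h7 := Real.exp_pos (rho w f t x)
    rw [this]
    field_simp
  rw [e2, e3]
  refine mul_le_mul_of_nonneg_left ?_ (by positivity)
  calc _ ≤ (6 / 5 * (q.rho0 / yv w f t x)) * 1 :=
        mul_le_mul h2 h5 h6 (by positivity)
    _ = _ := mul_one _

/-- the tip size of the solution -/
theorem tip_rate {q : Par} {g : ℝ → ℝ} (hg : IsBub g) {w f : Fn} (hp : ParPos 4 q)
    (h : ConfSol 20 w f 1) (hQ : Qual w f 1) (hB : ∀ t ∈ Ico (0 : ℝ) 1, Boot q g w f t)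
    (hF : ∀ t ∈ Ico (0 : ℝ) 1, ∀ x ∈ Ioo (0 : ℝ) 1, yv w f t x ≤ q.rho0 → M.FI q g w f t x) :
    ∃ L : ℝ, ∀ t ∈ Ico (0 : ℝ) 1, |f t 1 - 3 / kap * Real.log (1 - t)| ≤ L := by
  obtain ⟨C, hC, hC'⟩ := exists_bub_bound hg
  refine ⟨C + 6 / 5 * q.B * q.rho0 * q.rho0 + 4 + |1 / kap * Real.log q.eps| +
    |Real.log zeta0 / 2|, fun t ht => ?_⟩
  have hτ : 0 < tau t := by unfold tau; linarith only [ht.2]
  have hτ1 : tau t ≤ 1 := by unfold tau; linarith only [ht.1]
  have hs := Real.sqrt_pos.2 hτ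
  have hs1 : Real.sqrt (tau t) ≤ 1 := Real.sqrt_le_one.2 hτ1
  have hr0 := hp.rho0
  have hr1 := hp.rho0'
  have hBp : 0 < q.B := by linarith only [hp.B]
  have hN := hp.N
  -- the slice
  have hsw : ContDiffOn ℝ ∞ (w t) (Icc (-1) 1) := JA.smooth_slice h.smooth_w ht
  have hsf : ContDiffOn ℝ ∞ (f t) (Icc (-1) 1) := JA.smooth_slice h.smooth_f ht
  have hS : M2.Slice w f t := ⟨hsw, hsf⟩
  -- the point with `y = ρ₀`
  have hlt : q.rho0 < yv w f t 0 := by
    have h1 := (hB t ht).b0 t ⟨ht.1, le_rfl⟩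
    unfold yv
    rw [lt_div_iff₀ hs]
    nlinarith only [hr0, hr1, hN, hs1, h1]
  obtain ⟨x₀, hx₀, hy₀⟩ := C2.exists_yv_eq h ht le_rfl hr0 hlt.le
  have hx₀' : 0 < x₀ := by
    rcases hx₀.1.eq_or_lt with h0 | h0
    · rw [← h0] at hy₀
      exact absurd hy₀ hlt.ne'
    · exact h0
  -- a point near the tip
  have hn1 : ∀ᶠ x in 𝓝[<] (1 : ℝ), |f t x - f t 1| < 1 := by
    have h1 : ContinuousWithinAt (f t) (Icc (-1) 1) 1 :=
      hsf.continuousOn 1 ⟨by norm_num, le_rfl⟩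
    have h2 := (Metric.tendsto_nhds.1 h1) 1 one_pos
    have h3 : 𝓝[<] (1 : ℝ) ≤ 𝓝[Icc (-1) 1] 1 := by
      rw [← nhdsWithin_Ioo_eq_nhdsLT (show (-1 : ℝ) < 1 by norm_num)]
      exact nhdsWithin_mono _ Ioo_subset_Icc_self
    exact h3 h2
  have hn2 : ∀ᶠ x in 𝓝[<] (1 : ℝ), |w t x - w t 1| < 1 := by
    have h1 : ContinuousWithinAt (w t) (Icc (-1) 1) 1 :=
      hsw.continuousOn 1 ⟨by norm_num, le_rfl⟩
    have h2 := (Metric.tendsto_nhds.1 h1) 1 one_pos
    have h3 : 𝓝[<] (1 : ℝ) ≤ 𝓝[Icc (-1) 1] 1 := by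
      rw [← nhdsWithin_Ioo_eq_nhdsLT (show (-1 : ℝ) < 1 by norm_num)]
      exact nhdsWithin_mono _ Ioo_subset_Icc_self
    exact h3 h2
  have hn3 : ∀ᶠ x in 𝓝[<] (1 : ℝ), Real.log (1 - x ^ 2) < 2 * (f t 1 - w t 1 - 3) := by
    have h1 : Tendsto (fun x : ℝ => 1 - x ^ 2) (𝓝[<] 1) (𝓝[>] 0) := by
      refine tendsto_nhdsWithin_iff.2 ⟨?_, ?_⟩
      · have h2 : Continuous fun x : ℝ => 1 - x ^ 2 := by fun_prop
        have h3 := h2.tendsto 1
        norm_num at h3
        exact h3.mono_left inf_le_left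
      · rw [← nhdsWithin_Ioo_eq_nhdsLT (show (-1 : ℝ) < 1 by norm_num)]
        filter_upwards [self_mem_nhdsWithin] with x hx
        exact M2.one_sub_sq_pos hx
    exact (Real.tendsto_log_nhdsGT_zero.comp h1).eventually_lt_atBot _
  obtain ⟨x₁, ⟨⟨⟨hx1, hx2⟩, hx3⟩, hx4⟩⟩ := (((eventually_iff_exists_mem.2
    ⟨Ioo x₀ 1, Ioo_mem_nhdsLT hx₀.2, fun x hx => hx⟩).and hn1).and hn2 |>.and hn3).exists
  have hle : x₀ ≤ x₁ := hx1.1.le
  have hmem : ∀ x ∈ Icc x₀ x₁, x ∈ Ioo (0 : ℝ) 1 := fun x hx =>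
    ⟨hx₀'.trans_le hx.1, hx.2.trans_lt hx1.2⟩
  have hmem' : ∀ x ∈ Icc x₀ x₁, x ∈ Ioo (-1 : ℝ) 1 := fun x hx =>
    ⟨by linarith only [(hmem x hx).1], (hmem x hx).2⟩
  have hneg : ∀ x ∈ Icc x₀ x₁, M2.r1 w f t x < 0 := fun x hx =>
    M2.r1_neg (hmem' x hx) (hQ.rs_pos t ht x (hmem x hx))
  have hρ : ∀ x ∈ Icc x₀ x₁, HasDerivAt (rho w f t) (M2.r1 w f t x) x := fun x hx =>
    M2.hasDerivAt_rho hS (hmem' x hx)
  have hanti : AntitoneOn (rho w f t) (Icc x₀ x₁) := by
    refine antitoneOn_of_deriv_nonpos (convex_Icc _ _)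
      (fun x hx => (hρ x hx).continuousAt.continuousWithinAt)
      (fun x hx => (hρ x (interior_subset hx)).differentiableAt.differentiableWithinAt)
      (fun x hx => ?_)
    rw [(hρ x (interior_subset hx)).deriv]
    exact (hneg x (interior_subset hx)).le
  have l0 : x₀ ∈ Icc x₀ x₁ := ⟨le_rfl, hle⟩
  have l1 : x₁ ∈ Icc x₀ x₁ := ⟨hle, le_rfl⟩
  have hyle : ∀ x ∈ Icc x₀ x₁, yv w f t x ≤ q.rho0 := fun x hx => by
    rw [← hy₀]
    exact div_le_div_of_nonneg_right (Real.exp_le_exp.2 (hanti l0 hx hx.1)) hs.le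
  have hFI : ∀ x ∈ Icc x₀ x₁, M.FI q g w f t x := fun x hx => hF t ht x (hmem x hx) (hyle x hx)
  have hgpos : ∀ x ∈ Icc x₀ x₁, 0 < g (uu w f t x) := fun x hx => by
    have h1 := hg.lower _ (hFI x hx).u_pos
    have h2 := M2.tanh_pos (hFI x hx).u_pos
    linarith only [h1, h2]
  have hU : ∀ x ∈ Icc x₀ x₁, HasDerivAt (uu w f t)
      (-(M2.r1 w f t x) * (g (uu w f t x) * (1 - ee g w f t x))) x := fun x hx => by
    have h1 := M2.hasDerivAt_uu hS (hmem' x hx) (hFI x hx).rs_pos.ne'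
    refine h1.congr_deriv ?_
    have h2 := (hgpos x hx).ne'
    unfold ee
    field_simp
    ring
  have he1 : ∀ x ∈ Icc x₀ x₁, |ee g w f t x| ≤ 1 := fun x hx => by
    have h1 := (hFI x hx).e_le
    have h2 := (hFI x hx).eb_le
    have h3 := Real.one_le_cosh (uu w f t x)
    have h4 : 0 ≤ M.eb q w f t x := (abs_nonneg _).trans h1
    nlinarith only [h1, h2, h3, h4]
  have key := almost_const (e := ee g w f t) hg hC hC'
    (show 0 ≤ 6 / 5 * q.B * q.rho0 / Real.sqrt (tau t) by positivity) hle hρ hU hneg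
    (fun x hx => (hFI x hx).u_pos) (fun x hx => ee_bound hp ht (hFI x hx) (hyle x hx)) he1
  -- the value at `x₀`
  have hr : Real.exp (rho w f t x₀) = q.rho0 * Real.sqrt (tau t) := by
    have h1 : Real.exp (rho w f t x₀) / Real.sqrt (tau t) = q.rho0 := hy₀
    rw [div_eq_iff hs.ne'] at h1
    exact h1
  have hrho : rho w f t x₀ = Real.log q.rho0 + Real.log (tau t) / 2 := by
    rw [← Real.log_exp (rho w f t x₀), hr, Real.log_mul hr0.ne' hs.ne', Real.log_sqrt hτ.le]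
  have hKe : 6 / 5 * q.B * q.rho0 / Real.sqrt (tau t) * Real.exp (rho w f t x₀) =
      6 / 5 * q.B * q.rho0 * q.rho0 := by
    rw [hr]
    field_simp
  rw [hKe] at key
  have hT := T0_pos hp ht
  have hsin := (hFI x₀ l0).sinh_le
  rw [hy₀, div_self hr0.ne', Real.one_rpow, mul_one] at hsin
  have hsm := Lam_small hT (hFI x₀ l0).T_ge hsin
  have hlT : Real.log (q.T0 t) = Real.log q.eps + lam 3 * Real.log (tau t) -
      kap * Real.log q.rho0 := by
    have h1 := hp.eps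
    have h2 : 0 < tau t ^ lam 3 := Real.rpow_pos_of_pos hτ _
    have h3 : 0 < q.rho0 ^ (-kap) := Real.rpow_pos_of_pos hr0 _
    unfold Par.T0 Par.A
    rw [Real.log_mul (by positivity) h3.ne', Real.log_mul h1.ne' h2.ne', Real.log_rpow hτ,
      Real.log_rpow hr0]
    ring
  have k0 := kap_pos
  have hval : 1 / kap * Real.log (q.T0 t) = 1 / kap * Real.log q.eps +
      (3 / kap - 1 / 2) * Real.log (tau t) - Real.log q.rho0 := by
    rw [hlT]
    unfold lam
    push_cast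
    field_simp
  -- the value at `x₁`
  have hU1 : 1 ≤ uu w f t x₁ := by
    have h1 := abs_lt.1 hx2
    have h2 := abs_lt.1 hx3
    unfold uu
    linarith only [h1.1, h2.2, hx4]
  have hla := Lam_large hU1
  have hfe := C2.f_eq w f t x₁
  have htau : tau t = 1 - t := rfl
  rw [← htau]
  have z1 := abs_le.1 key
  have z2 := abs_le.1 hsm
  have z3 := abs_le.1 hla
  have z4 := abs_lt.1 hx2
  have z5 := abs_le.1 (le_refl |1 / kap * Real.log q.eps|)
  have z6 := abs_le.1 (le_refl |Real.log zeta0 / 2|)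
  rw [abs_le]
  constructor <;> linarith only [z1.1, z1.2, z2.1, z2.2, z3.1, z3.2, z4.1, z4.2, z5.1, z5.2, z6.1,
    z6.2, hval, hrho, hfe]

end

end Vale.Agent.P244.H109
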