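import Vale.Agent.P244.H109.Coord

set_option linter.all false

/-! # Sectional curvature: products, rescaling, the tip of a doubly warped metric -/

open scoped ContDiff Topology
open Set
open Vale.Agent.P244.Flow (pd christoffel ricci)

namespace Vale.Agent.P244.H109

open Vale.Agent.P244.Geo (blk blk_ll blk_lr blk_rl blk_rr blk_inv dl)
open Vale.Agent.P244.GeoP (fderiv_snd' pd_congr pd_zero christoffel_congr)

section congr

variable {V : Type*} [NormedAddCommGroup V] [NormedSpace ℝ V] {n : ℕ} (v : Fin n → V)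
  {G G' : V → Matrix (Fin n) (Fin n) ℝ} {y : V}

/-- the contraction of the curvature tensor is the Ricci tensor -/
theorem ricci_eq_sum (G : V → Matrix (Fin n) (Fin n) ℝ) (i j : Fin n) (y : V) :
    ricci v G i j y = ∑ k, riemann v G k i k j y := by
  unfold ricci riemann
  rw [Finset.sum_add_distrib]

theorem riemann_congr (h : G =ᶠ[𝓝 y] G') (k i l j : Fin n) :
    riemann v G k i l j y = riemann v G' k i l j y := by
  have h1 : ∀ k a b : Fin n, christoffel v G k a b =ᶠ[𝓝 y] christoffel v G' k a b :=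
    fun k a b => by
      filter_upwards [h.eventuallyEq_nhds] with z hz
      exact christoffel_congr v hz k a b
  unfold riemann
  rw [pd_congr v l (h1 k i j), pd_congr v j (h1 k i l)]
  congr 1
  refine Finset.sum_congr rfl (fun m _ => ?_)
  rw [(h1 k l m).eq_of_nhds, (h1 m i j).eq_of_nhds, (h1 k j m).eq_of_nhds, (h1 m i l).eq_of_nhds]

theorem sectional_congr (h : G =ᶠ[𝓝 y] G') (i j : Fin n) :
    sectional v G i j y = sectional v G' i j y := by
  unfold sectional
  rw [h.eq_of_nhds]
  simp only [riemann_congr v h]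

end congr

section product

variable {V : Type*} [NormedAddCommGroup V] [NormedSpace ℝ V] {n : ℕ}
  {W : Type*} [NormedAddCommGroup W] [NormedSpace ℝ W] {d : ℕ}
  {v : Fin n → V} {w : Fin d → W} {G : V → Matrix (Fin n) (Fin n) ℝ}
  {H : W → Matrix (Fin d) (Fin d) ℝ}

theorem riemann_pm {U : Set V} (hU : IsOpen U) (hdet : ∀ y ∈ U, IsUnit (G y).det)
    {U' : Set W} (hU' : IsOpen U') (hdet' : ∀ y ∈ U', IsUnit (H y).det)
    {y : V × W} (hy : y.1 ∈ U) (hy' : y.2 ∈ U') (k i l j : Fin n) :
    riemann (prodFrame v w) (pm G H) (Fin.castAdd d k) (Fin.castAdd d i) (Fin.castAdd d l)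
      (Fin.castAdd d j) y = riemann v G k i l j y.1 := by
  have h1 := hdet _ hy
  have h2 := hdet' _ hy'
  have E := ev2 hU hU' hy hy'
  have p1 : ∀ k i j l, pd (prodFrame v w) (Fin.castAdd d l) (christoffel (prodFrame v w) (pm G H)
      (Fin.castAdd d k) (Fin.castAdd d i) (Fin.castAdd d j)) y = pd v l (christoffel v G k i j) y.1 := by
    intro k i j l
    have e : christoffel (prodFrame v w) (pm G H) (Fin.castAdd d k) (Fin.castAdd d i)
        (Fin.castAdd d j) =ᶠ[nhds y] (fun z => christoffel v G k i j z.1) :=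
      E.mono fun z hz => c_lll (hdet _ hz.1) (hdet' _ hz.2) k i j
    rw [pd_congr (prodFrame v w) (Fin.castAdd d l) e]
    exact pd1_l v w (christoffel v G k i j) y l
  unfold riemann
  simp only [Fin.sum_univ_add, p1, c_lll h1 h2, c_llr h1 h2, c_lrl h1 h2, c_lrr h1 h2,
    c_rll h1 h2, c_rlr h1 h2, c_rrl h1 h2, c_rrr h1 h2, mul_zero, zero_mul, sub_zero,
    Finset.sum_const_zero, add_zero]

theorem sectional_pm {U : Set V} (hU : IsOpen U) (hdet : ∀ y ∈ U, IsUnit (G y).det)
    {U' : Set W} (hU' : IsOpen U') (hdet' : ∀ y ∈ U', IsUnit (H y).det)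
    {y : V × W} (hy : y.1 ∈ U) (hy' : y.2 ∈ U') (i j : Fin n) :
    sectional (prodFrame v w) (pm G H) (Fin.castAdd d i) (Fin.castAdd d j) y =
      sectional v G i j y.1 := by
  unfold sectional
  simp only [Fin.sum_univ_add, pm_ll, pm_lr, riemann_pm hU hdet hU' hdet' hy hy', zero_mul,
    Finset.sum_const_zero, add_zero]

end product

section tip

open Vale.Agent.P244.Geo

variable {m p : ℕ} {P : Prof} {b : EE m} {c : ℝ}

/-- the curvature of the doubly warped metric at the tip, in the direction of the second factor -/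
theorem riemann_G_tip (hP : P.Good) (hb : ‖b‖ ^ 2 + c ^ 2 = 1) (y : EE m × EE p)
    (hy : hh b c y.1 = 1) {a a' : Fin p} (ha : a ≠ a') :
    riemann (frame m p) (G m p b c P.A P.B P.C) (Fin.natAdd m a) (Fin.natAdd m a')
      (Fin.natAdd m a) (Fin.natAdd m a') y = Vale.Agent.P244.Geo.rho y.2 ^ 2 := by
  have hi0 : ∀ k, hi b c k y.1 = 0 := by
    have h1 := sum_hh hb y.1
    rw [hy] at h1
    norm_num at h1
    intro k
    have h2 := (Finset.sum_eq_zero_iff_of_nonneg (fun k _ => mul_self_nonneg _)).1 h1 k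
      (Finset.mem_univ k)
    exact mul_self_eq_zero.1 h2
  have d0 : dl a a' = 0 := by unfold dl; rw [if_neg ha]
  have d0' : dl a' a = 0 := by rw [dl_comm]; exact d0
  have e1 : christoffel (frame m p) (G m p b c P.A P.B P.C) (Fin.natAdd m a) (Fin.natAdd m a')
      (Fin.natAdd m a') = fun z => -(uu a z.2) := by
    funext z
    rw [ch_rrr hP hb]
    unfold chS
    rw [d0', dl_self]
    ring
  have e2 : christoffel (frame m p) (G m p b c P.A P.B P.C) (Fin.natAdd m a) (Fin.natAdd m a')
      (Fin.natAdd m a) = fun z => uu a' z.2 := by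
    funext z
    rw [ch_rrr hP hb]
    unfold chS
    rw [d0', dl_self]
    ring
  have f1 : pd (frame m p) (Fin.natAdd m a) (fun z : EE m × EE p => -(uu a z.2)) y =
      -(uu a y.2 * uu a y.2 - Vale.Agent.P244.Geo.rho y.2 / 2 * (if a = a then 1 else 0)) :=
    ((PD.snd (m := m) (HD_uu a y.2)).neg).2.2 a
  have f2 : pd (frame m p) (Fin.natAdd m a') (fun z : EE m × EE p => uu a' z.2) y =
      uu a' y.2 * uu a' y.2 - Vale.Agent.P244.Geo.rho y.2 / 2 * (if a' = a' then 1 else 0) :=
    (PD.snd (m := m) (HD_uu a' y.2)).2.2 a'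
  rw [if_pos rfl] at f1 f2
  unfold riemann
  rw [e1, e2, f1, f2, Fin.sum_univ_add]
  simp only [ch_rrr hP hb, ch_rrl hP hb, ch_lrr hP hb, hi0, d0, d0', mul_zero, zero_mul, sub_zero,
    Finset.sum_const_zero, zero_add]
  have e3 : ∀ k : Fin p, chS a a k y.2 * chS k a' a' y.2 - chS a a' k y.2 * chS k a' a y.2 =
      dl a' k * (2 * uu a' y.2 * uu k y.2) - uu k y.2 * uu k y.2 -
        dl a k * (uu a' y.2 * uu a' y.2) + dl a' k * (uu a y.2 * uu a y.2) := by
    intro k
    have q1 := dl_mul_self a k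
    have q2 := dl_mul_self a' k
    unfold chS
    rw [dl_comm k a, d0', dl_self, dl_self]
    linear_combination (-(uu a' y.2 * uu a' y.2)) * q1 + (uu a y.2 * uu a y.2) * q2
  rw [Finset.sum_congr rfl (fun k _ => e3 k)]
  simp only [Finset.sum_add_distrib, Finset.sum_sub_distrib, sum_dl, sum_uu]
  ring

/-- the sectional curvature of the doubly warped metric at the tip, in the directions of the
second factor -/
theorem sectional_G_tip (hP : P.Good) (hb : ‖b‖ ^ 2 + c ^ 2 = 1) (y : EE m × EE p)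
    (hy : hh b c y.1 = 1) {a a' : Fin p} (ha : a ≠ a') :
    sectional (frame m p) (G m p b c P.A P.B P.C) (Fin.natAdd m a) (Fin.natAdd m a') y =
      (P.C 1)⁻¹ := by
  have hC := (hP.posC 1 (by constructor <;> norm_num)).ne'
  have hr := (rho_pos y.2).ne'
  have d0 : dl a a' = 0 := by unfold dl; rw [if_neg ha]
  have e1 : ∀ K, G m p b c P.A P.B P.C y (Fin.natAdd m a) (Fin.castAdd p K) = 0 := fun K => by
    unfold G; rw [blk_rl]
  have e2 : ∀ k k', G m p b c P.A P.B P.C y (Fin.natAdd m k) (Fin.natAdd m k') =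
      P.C 1 * (Vale.Agent.P244.Geo.rho y.2 ^ 2 * dl k k') := fun k k' => by
    unfold G; rw [blk_rr, hy]
  have e3 : ∑ k : Fin p, P.C 1 * (Vale.Agent.P244.Geo.rho y.2 ^ 2 * dl a k) *
      riemann (frame m p) (G m p b c P.A P.B P.C) (Fin.natAdd m k) (Fin.natAdd m a')
        (Fin.natAdd m a) (Fin.natAdd m a') y =
      P.C 1 * Vale.Agent.P244.Geo.rho y.2 ^ 4 := by
    have e4 : ∀ k : Fin p, P.C 1 * (Vale.Agent.P244.Geo.rho y.2 ^ 2 * dl a k) *
      riemann (frame m p) (G m p b c P.A P.B P.C) (Fin.natAdd m k) (Fin.natAdd m a')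
        (Fin.natAdd m a) (Fin.natAdd m a') y = dl a k * (P.C 1 * Vale.Agent.P244.Geo.rho y.2 ^ 2 *
      riemann (frame m p) (G m p b c P.A P.B P.C) (Fin.natAdd m k) (Fin.natAdd m a')
        (Fin.natAdd m a) (Fin.natAdd m a') y) := fun k => by ring
    rw [Finset.sum_congr rfl (fun k _ => e4 k), sum_dl, riemann_G_tip hP hb y hy ha]
    ring
  unfold sectional
  rw [Fin.sum_univ_add]
  simp only [e1, e2, zero_mul, Finset.sum_const_zero, zero_add]
  rw [e3, dl_self, dl_self, d0]
  field_simp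
  ring

end tip

end Vale.Agent.P244.H109
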