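import Vale.Agent.P244.H109.Geom
import Vale.Agent.P244.H109.Sec
import Vale.Agent.P244.H426.Ric
import Vale.Agent.P244.Bd3.B17

set_option linter.all false

/-! # Rescaled flows, Einstein flows, blow-up of the Ricci curvature, the singular flow on
`S^21 × S^20` -/

open scoped Manifold ContDiff Topology
open Set Module

namespace Vale.Agent.P244.H109

open Vale.Agent.P244.Flow (Tensor val comp pd christoffel ricci scalarCurvature IsRicciFlow
  ExtendsPast std)
open Vale.Agent.P244.GeoP (gAt dsym comp_eq_gAt dsym_injective isUnit_comp pd_congr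
  not_extends_of_degenerate Degen)
open Vale.Agent.P244.H426 (metVal ricVal BoundedScalar qf qf_le_trace)

section coord

variable {V : Type*} [NormedAddCommGroup V] [NormedSpace ℝ V] {n : ℕ}

/-- the metric `c G` -/
def smet (c : ℝ) (G : V → Matrix (Fin n) (Fin n) ℝ) (y : V) : Matrix (Fin n) (Fin n) ℝ :=
  fun i j => c * G y i j

lemma smet_inv {c : ℝ} (hc : c ≠ 0) {G : V → Matrix (Fin n) (Fin n) ℝ} {y : V}
    (h : IsUnit (G y).det) (i j : Fin n) : (smet c G y)⁻¹ i j = c⁻¹ * (G y)⁻¹ i j := by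
  have e : (smet c G y)⁻¹ = c⁻¹ • (G y)⁻¹ := by
    refine Matrix.inv_eq_right_inv ?_
    have h1 : smet c G y = c • G y := rfl
    rw [h1, Matrix.smul_mul, Matrix.mul_smul, smul_smul, mul_inv_cancel₀ hc, one_smul]
    exact Matrix.mul_nonsing_inv _ h
  rw [e]
  rfl

lemma pd_mul (v : Fin n → V) (c : ℝ) (f : V → ℝ) (i : Fin n) (y : V) :
    pd v i (fun z => c * f z) y = c * pd v i f y := by
  unfold pd
  have h := congrFun (fderiv_const_smul_field (𝕜 := ℝ) c (f := f)) y
  have h1 : (fun z => c * f z) = c • f := rfl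
  rw [h1, h]
  rfl

lemma christoffel_smet {c : ℝ} (hc : c ≠ 0) (v : Fin n → V) {G : V → Matrix (Fin n) (Fin n) ℝ}
    {y : V} (h : IsUnit (G y).det) (k i j : Fin n) :
    christoffel v (smet c G) k i j y = christoffel v G k i j y := by
  unfold christoffel
  congr 1
  refine Finset.sum_congr rfl (fun l _ => ?_)
  rw [smet_inv hc h]
  simp only [smet, pd_mul]
  field_simp

lemma ricci_smet {c : ℝ} (hc : c ≠ 0) (v : Fin n → V) {G : V → Matrix (Fin n) (Fin n) ℝ}
    {U : Set V} (hU : IsOpen U) (hdet : ∀ y ∈ U, IsUnit (G y).det) {y : V} (hy : y ∈ U)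
    (i j : Fin n) : ricci v (smet c G) i j y = ricci v G i j y := by
  have h1 : ∀ k a b : Fin n, christoffel v (smet c G) k a b =ᶠ[𝓝 y] christoffel v G k a b :=
    fun k a b => by
      filter_upwards [hU.mem_nhds hy] with z hz
      exact christoffel_smet hc v (hdet z hz) k a b
  unfold ricci
  congr 1
  · refine Finset.sum_congr rfl (fun k _ => ?_)
    rw [pd_congr v k (h1 k i j), pd_congr v j (h1 k i k)]
  · refine Finset.sum_congr rfl (fun k _ => Finset.sum_congr rfl (fun l _ => ?_))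
    rw [(h1 k k l).eq_of_nhds, (h1 l i j).eq_of_nhds, (h1 k j l).eq_of_nhds,
      (h1 l i k).eq_of_nhds]

lemma riemann_smet {c : ℝ} (hc : c ≠ 0) (v : Fin n → V) {G : V → Matrix (Fin n) (Fin n) ℝ}
    {U : Set V} (hU : IsOpen U) (hdet : ∀ y ∈ U, IsUnit (G y).det) {y : V} (hy : y ∈ U)
    (k i l j : Fin n) : riemann v (smet c G) k i l j y = riemann v G k i l j y := by
  have h1 : ∀ k a b : Fin n, christoffel v (smet c G) k a b =ᶠ[𝓝 y] christoffel v G k a b :=
    fun k a b => by
      filter_upwards [hU.mem_nhds hy] with z hz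
      exact christoffel_smet hc v (hdet z hz) k a b
  unfold riemann
  rw [pd_congr v l (h1 k i j), pd_congr v j (h1 k i l)]
  congr 1
  refine Finset.sum_congr rfl (fun m _ => ?_)
  rw [(h1 k l m).eq_of_nhds, (h1 m i j).eq_of_nhds, (h1 k j m).eq_of_nhds, (h1 m i l).eq_of_nhds]

lemma sectional_smet {c : ℝ} (hc : c ≠ 0) (v : Fin n → V) {G : V → Matrix (Fin n) (Fin n) ℝ}
    {U : Set V} (hU : IsOpen U) (hdet : ∀ y ∈ U, IsUnit (G y).det) {y : V} (hy : y ∈ U)
    (i j : Fin n) : sectional v (smet c G) i j y = c⁻¹ * sectional v G i j y := by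
  unfold sectional
  simp only [riemann_smet hc v hU hdet hy]
  have e1 : ∑ k, smet c G y i k * riemann v G k j i j y =
      c * ∑ k, G y i k * riemann v G k j i j y := by
    rw [Finset.mul_sum]
    refine Finset.sum_congr rfl (fun k _ => ?_)
    unfold smet
    ring
  have e2 : smet c G y i i * smet c G y j j - smet c G y i j ^ 2 =
      c * (c * (G y i i * G y j j - G y i j ^ 2)) := by
    unfold smet
    ring
  rw [e1, e2, mul_div_mul_left _ _ hc, mul_comm c, ← div_div, div_eq_inv_mul _ c]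

end coord

section ode

lemma exists_small {B β δ a : ℝ} (hβ : 0 < β) (hδ : 0 < δ) (ha : 0 < a) :
    ∃ x ∈ Ioo 0 a, B * x ^ β < δ := by
  have h1 : Filter.Tendsto (fun x : ℝ => B * x ^ β) (𝓝[>] 0) (𝓝 0) := by
    have h2 := (Real.continuous_rpow_const hβ.le).tendsto 0
    rw [Real.zero_rpow hβ.ne'] at h2
    have h3 := (h2.const_mul B).mono_left (inf_le_left (b := Filter.principal (Ioi (0 : ℝ))))
    rwa [mul_zero] at h3
  obtain ⟨x, hx1, hx2⟩ := ((h1.eventually_lt_const hδ).and (Ioo_mem_nhdsGT ha)).exists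
  exact ⟨x, hx2, hx1⟩

lemma exists_ricci_gt {φ ρ : ℝ → ℝ} {T α A B : ℝ} (hT : 0 < T) (hA : 0 < A)
    (hlow : ∀ t ∈ Ico 0 T, A * (T - t) ^ α ≤ φ t) (hup : ∀ t ∈ Ico 0 T, φ t ≤ B * (T - t) ^ α)
    (hder : ∀ t ∈ Ico 0 T, HasDerivWithinAt φ (-2 * ρ t) (Ico 0 T) t) {c : ℝ} (hc : c < α / 2)
    {s : ℝ} (hs : s < T) : ∃ t ∈ Ico 0 T, s < t ∧ c * φ t < (T - t) * ρ t := by
  by_contra hcon
  push Not at hcon
  set s1 := max s 0 with hs1
  have hs1T : s1 < T := max_lt hs hT
  have hsub : Ico s1 T ⊆ Ico 0 T := Ico_subset_Ico_left (le_max_right _ _)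
  have hmem : s1 ∈ Ico s1 T := ⟨le_rfl, hs1T⟩
  have hd : ∀ t ∈ Ico s1 T, HasDerivWithinAt (fun t => φ t * (T - t) ^ (-(2 * c)))
      (-2 * ρ t * (T - t) ^ (-(2 * c)) + φ t * (-1 * -(2 * c) * (T - t) ^ (-(2 * c) - 1)))
      (Ico s1 T) t := by
    intro t ht
    have h1 : HasDerivAt (fun t : ℝ => (T - t) ^ (-(2 * c)))
        (-1 * -(2 * c) * (T - t) ^ (-(2 * c) - 1)) t := by
      have h2 : HasDerivAt (fun t : ℝ => T - t) (-1) t := by
        simpa using (hasDerivAt_id t).const_sub T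
      exact h2.rpow_const (Or.inl (by linarith [ht.2]))
    exact ((hder t (hsub ht)).mono hsub).mul h1.hasDerivWithinAt
  have hmono : MonotoneOn (fun t => φ t * (T - t) ^ (-(2 * c))) (Ico s1 T) := by
    refine monotoneOn_of_hasDerivWithinAt_nonneg (convex_Ico s1 T)
      (fun t ht => (hd t ht).continuousWithinAt)
      (f' := fun t => -2 * ρ t * (T - t) ^ (-(2 * c)) +
        φ t * (-1 * -(2 * c) * (T - t) ^ (-(2 * c) - 1)))
      (fun t ht => (hd t (interior_subset ht)).mono interior_subset) (fun t ht => ?_)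
    rw [interior_Ico] at ht
    have ht0 : 0 < T - t := by linarith [ht.2]
    have h3 := hcon t (hsub ⟨ht.1.le, ht.2⟩) ((le_max_left _ _).trans_lt ht.1)
    have h4 : (T - t) ^ (-(2 * c)) = (T - t) * (T - t) ^ (-(2 * c) - 1) := by
      rw [Real.rpow_sub_one ht0.ne']
      field_simp
    have h5 : 0 < (T - t) ^ (-(2 * c) - 1) := Real.rpow_pos_of_pos ht0 _
    have h6 : -2 * ρ t * (T - t) ^ (-(2 * c)) + φ t * (-1 * -(2 * c) * (T - t) ^ (-(2 * c) - 1)) =
        2 * (T - t) ^ (-(2 * c) - 1) * (c * φ t - (T - t) * ρ t) := by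
      rw [h4]
      ring
    show 0 ≤ -2 * ρ t * (T - t) ^ (-(2 * c)) + φ t * (-1 * -(2 * c) * (T - t) ^ (-(2 * c) - 1))
    rw [h6]
    exact mul_nonneg (by positivity) (by linarith)
  have hT1 : 0 < T - s1 := by linarith
  have hφ : 0 < φ s1 * (T - s1) ^ (-(2 * c)) := by
    refine mul_pos ?_ (Real.rpow_pos_of_pos hT1 _)
    exact (mul_pos hA (Real.rpow_pos_of_pos hT1 α)).trans_le (hlow s1 (hsub hmem))
  obtain ⟨x, hx, hlt⟩ := exists_small (B := B) (β := α - 2 * c) (by linarith) hφ hT1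
  have ht : T - x ∈ Ico s1 T := ⟨by linarith [hx.2], by linarith [hx.1]⟩
  have h7 := hmono hmem ht ht.1
  simp only at h7
  have h8 := mul_le_mul_of_nonneg_right (hup _ (hsub ht)) (Real.rpow_nonneg (by linarith [hx.1] : 0 ≤ T - (T - x)) (-(2 * c)))
  rw [sub_sub_cancel, mul_assoc, ← Real.rpow_add hx.1] at h8
  rw [sub_sub_cancel] at h7
  rw [← sub_eq_add_neg] at h8
  linarith

end ode

variable {V : Type*} [NormedAddCommGroup V] [NormedSpace ℝ V] {n : ℕ}
  {M : Type*} [TopologicalSpace M] [ChartedSpace V M]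

/-- a component of the metric has infimum `0` -/
def Deg (v : Fin n → V) (g : ℝ → Tensor V M) (T : ℝ) : Prop :=
  ∃ e ∈ atlas V M, ∃ y ∈ e.target, ∃ i : Fin n, ∀ δ > 0, ∃ t ∈ Ico 0 T, comp v (g t) e y i i < δ

/-- a component of the metric is of the order `(T - t)^α`, a sectional curvature is of the order
`(T - t)^(-α)` -/
def Rate (v : Fin n → V) (g : ℝ → Tensor V M) (T : ℝ) : Prop :=
  ∃ (x : M) (i j : Fin n), i ≠ j ∧ SizeRate v g T x i ∧ CurvatureRate v g T x i j

lemma sizeExp_pos : 0 < sizeExp := by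
  have h : Real.sqrt 1209 < 39 := by
    rw [Real.sqrt_lt' (by norm_num)]
    norm_num
  unfold sizeExp
  exact div_pos (by norm_num) (by linarith)

theorem Rate.deg {v : Fin n → V} {g : ℝ → Tensor V M} {T : ℝ} (hT : 0 < T) (h : Rate v g T) :
    Deg v g T := by
  obtain ⟨x, i, -, -, ⟨A, hA, B, hB, hr⟩, -⟩ := h
  refine ⟨chartAt V x, chart_mem_atlas V x, chartAt V x x, mem_chart_target V x, i,
    fun δ hδ => ?_⟩
  obtain ⟨s, hs, hlt⟩ := exists_small (B := B) sizeExp_pos hδ hT
  have ht : T - s ∈ Ico 0 T := ⟨by linarith [hs.2], by linarith [hs.1]⟩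
  refine ⟨T - s, ht, (hr _ ht).2.trans_lt ?_⟩
  rwa [sub_sub_cancel]

theorem ricciAbove_of_size (v : Fin n → V) {g : ℝ → Tensor V M} {T : ℝ} (hT : 0 < T)
    (hg : IsRicciFlow v g T) {x : M} {i : Fin n} (hs : SizeRate v g T x i) :
    RicciAbove v g T x i := by
  obtain ⟨A, hA, B, hB, hr⟩ := hs
  intro c hc s hs
  exact exists_ricci_gt hT hA (fun t ht => (hr t ht).1) (fun t ht => (hr t ht).2)
    (fun t ht => hg.flow _ (chart_mem_atlas V x) _ (mem_chart_target V x) i i t ht) hc hs

theorem metVal_single (v : Fin n → V) (h : Tensor V M) (x : M) (i : Fin n) :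
    metVal v h x (Pi.single i 1) = comp v h (chartAt V x) (chartAt V x x) i i := by
  unfold metVal
  rw [Finset.sum_eq_single i, Finset.sum_eq_single i]
  · simp
  · intro j _ hj
    rw [Pi.single_eq_of_ne hj]
    ring
  · simp
  · intro j _ hj
    refine Finset.sum_eq_zero fun k _ => ?_
    rw [Pi.single_eq_of_ne hj]
    ring
  · simp

theorem ricVal_single (v : Fin n → V) (h : Tensor V M) (x : M) (i : Fin n) :
    ricVal v h x (Pi.single i 1) = ricci v (comp v h (chartAt V x)) i i (chartAt V x x) := by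
  unfold ricVal
  rw [Finset.sum_eq_single i, Finset.sum_eq_single i]
  · simp
  · intro j _ hj
    rw [Pi.single_eq_of_ne hj]
    ring
  · simp
  · intro j _ hj
    refine Finset.sum_eq_zero fun k _ => ?_
    rw [Pi.single_eq_of_ne hj]
    ring
  · simp

/-- trace inequality: if `Ric ≥ -K g` at `x`, then `Ric ≤ (R + (n - 1) K) g` at `x` -/
theorem ric_le_of_ge [IsManifold 𝓘(ℝ, V) ∞ M] (v : Basis (Fin n) ℝ V) {h : Tensor V M}
    (hsymm : ∀ x u w, val h x u w = val h x w u) (hpos : ∀ x w, w ≠ 0 → 0 < val h x w w)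
    (x : M) {K : ℝ} (hK : ∀ a, -K * metVal v h x a ≤ ricVal v h x a) (a : Fin n → ℝ) :
    ricVal v h x a ≤ (scalarCurvature v h x + ((n : ℝ) - 1) * K) * metVal v h x a := by
  set G := comp v h (chartAt V x) (chartAt V x x) with hG
  set S : Matrix (Fin n) (Fin n) ℝ := Matrix.of fun i j =>
    ricci v (comp v h (chartAt V x)) i j (chartAt V x x) + K * G i j with hS
  have hsy : ∀ i j, G i j = G j i := fun i j => hsymm _ _ _
  have hu := isUnit_comp v h hpos (chart_mem_atlas V x) (mem_chart_target V x)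
  have hqS : ∀ b, qf S b = ricVal v h x b + K * metVal v h x b := by
    intro b
    unfold qf ricVal metVal
    rw [Finset.mul_sum, ← Finset.sum_add_distrib]
    refine Finset.sum_congr rfl fun i _ => ?_
    rw [Finset.mul_sum, ← Finset.sum_add_distrib]
    refine Finset.sum_congr rfl fun j _ => ?_
    rw [hS, Matrix.of_apply]
    ring
  have hqG : ∀ b, qf G b = metVal v h x b := fun b => rfl
  have hGnn : ∀ b, 0 ≤ qf G b := by
    intro b
    have h1 : qf G b = gAt h ((chartAt V x).symm (chartAt V x x))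
        (dsym (chartAt V x) (chartAt V x x) (∑ i, b i • v i))
        (dsym (chartAt V x) (chartAt V x x) (∑ i, b i • v i)) := by
      simp only [map_sum, map_smul, sum_apply, smul_apply, smul_eq_mul, qf, hG,
        comp_eq_gAt, Finset.mul_sum]
      rw [Finset.sum_comm]
      refine Finset.sum_congr rfl (fun i _ => Finset.sum_congr rfl (fun j _ => ?_))
      ring
    rw [h1]
    rcases eq_or_ne (dsym (chartAt V x) (chartAt V x x) (∑ i, b i • v i)) 0 with h2 | h2
    · rw [h2]; simp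
    · exact (hpos _ _ h2).le
  have hSnn : ∀ b, 0 ≤ qf S b := by
    intro b
    rw [hqS]
    have := hK b
    linarith
  have h1 := qf_le_trace hsy hu hGnn hSnn a
  have htr : ∑ i, ∑ j, G⁻¹ i j * S i j = scalarCurvature v h x + n * K := by
    have h2 : ∀ i, ∑ j, G⁻¹ i j * S i j =
        (∑ j, G⁻¹ i j * ricci v (comp v h (chartAt V x)) i j (chartAt V x x)) + K := by
      intro i
      have h3 : ∑ j, G⁻¹ i j * (K * G i j) = K := by
        have h4 : ∑ j, G⁻¹ i j * (K * G i j) = K * (G⁻¹ * G) i i := by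
          rw [Matrix.mul_apply, Finset.mul_sum]
          refine Finset.sum_congr rfl fun j _ => ?_
          rw [hsy i j]
          ring
        rw [h4, Matrix.nonsing_inv_mul G hu, Matrix.one_apply_eq, mul_one]
      conv_rhs => rw [← h3]
      rw [← Finset.sum_add_distrib]
      refine Finset.sum_congr rfl fun j _ => ?_
      rw [hS, Matrix.of_apply]
      ring
    simp only [h2, Finset.sum_add_distrib, Finset.sum_const, Finset.card_univ, Fintype.card_fin,
      nsmul_eq_mul]
    rfl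
  rw [htr, hqS, hqG] at h1
  linarith

theorem ricciBelow_of_size [IsManifold 𝓘(ℝ, V) ∞ M] (v : Basis (Fin n) ℝ V)
    {g : ℝ → Tensor V M} {T : ℝ} (hT : 0 < T) (hg : IsRicciFlow v g T)
    (hb : BoundedScalar v g T) {x : M} {i : Fin n} (hs : SizeRate (v : Fin n → V) g T x i) :
    RicciBelow v g T x := by
  have habove := ricciAbove_of_size (v : Fin n → V) hT hg hs
  obtain ⟨A, hA, B, hB, hr⟩ := hs
  obtain ⟨C, hC⟩ := hb
  intro c hc s hs
  obtain ⟨c1, hc1, hc2⟩ := exists_between hc
  -- a time `s'` after which `c1 - (n-1) c ≥ (|C| + 1) (T - t)`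
  set s' := max s (T - (c1 - ((n : ℝ) - 1) * c) / (|C| + 1)) with hs'
  have hC1 : 0 < |C| + 1 := by positivity
  have hs'T : s' < T := by
    refine max_lt hs ?_
    have : 0 < (c1 - ((n : ℝ) - 1) * c) / (|C| + 1) := div_pos (by linarith) hC1
    linarith
  obtain ⟨t, ht, hst, hlt⟩ := habove c1 hc2 s' hs'T
  refine ⟨t, ht, (le_max_left _ _).trans_lt hst, ?_⟩
  by_contra hcon
  push Not at hcon
  have ht0 : 0 < T - t := by linarith [ht.2]
  have hK : ∀ a, -(c / (T - t)) * metVal v (g t) x a ≤ ricVal v (g t) x a := by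
    intro a
    have h1 := hcon a
    have h2 : -(c / (T - t)) * metVal v (g t) x a = (-c * metVal v (g t) x a) / (T - t) := by
      ring
    rw [h2, div_le_iff₀ ht0]
    linarith
  have h1 := ric_le_of_ge v (hg.symm t ht) (hg.pos t ht) x hK (Pi.single i 1)
  rw [metVal_single, ricVal_single] at h1
  have hpos : 0 < comp v (g t) (chartAt V x) (chartAt V x x) i i :=
    (mul_pos hA (Real.rpow_pos_of_pos ht0 _)).trans_le (hr t ht).1
  have h2 := (abs_le.1 (hC t ht x)).2
  have h3 : T - (c1 - ((n : ℝ) - 1) * c) / (|C| + 1) < t := (le_max_right _ _).trans_lt hst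
  have h4 : (|C| + 1) * (T - t) < c1 - ((n : ℝ) - 1) * c := by
    have h5 : T - t < (c1 - ((n : ℝ) - 1) * c) / (|C| + 1) := by linarith
    rw [lt_div_iff₀ hC1] at h5
    linarith
  have h5 := mul_le_mul_of_nonneg_left h1 ht0.le
  have h6 : (T - t) * ((scalarCurvature v (g t) x + ((n : ℝ) - 1) * (c / (T - t))) *
      comp v (g t) (chartAt V x) (chartAt V x x) i i) =
      ((T - t) * scalarCurvature v (g t) x + ((n : ℝ) - 1) * c) *
        comp v (g t) (chartAt V x) (chartAt V x x) i i := by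
    field_simp
  rw [h6] at h5
  have h7 : (T - t) * scalarCurvature v (g t) x ≤ (|C| + 1) * (T - t) := by
    have h8 : C ≤ |C| := le_abs_self C
    nlinarith
  have h8 : ((T - t) * scalarCurvature v (g t) x + ((n : ℝ) - 1) * c) *
        comp v (g t) (chartAt V x) (chartAt V x x) i i ≤
        c1 * comp v (g t) (chartAt V x) (chartAt V x x) i i :=
    mul_le_mul_of_nonneg_right (by linarith) hpos.le
  linarith

theorem isSingularFlow_of_rate [IsManifold 𝓘(ℝ, V) ∞ M] (v : Basis (Fin n) ℝ V)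
    {g : ℝ → Tensor V M} {T : ℝ} (hT : 0 < T) (hg : IsRicciFlow v g T)
    (hb : ∃ C : ℝ, ∀ t ∈ Ico 0 T, ∀ x, |scalarCurvature v (g t) x| ≤ C)
    (hd : Rate (v : Fin n → V) g T) : IsSingularFlow v g T := by
  refine ⟨hg, hb, not_extends_of_degenerate v hT (hd.deg hT), ?_⟩
  obtain ⟨x, i, j, hij, hsz, hsec⟩ := hd
  exact ⟨x, i, j, hij, hsz, hsec, ricciAbove_of_size _ hT hg hsz, ricciBelow_of_size v hT hg hb hsz⟩

/-! ### rescaling -/

/-- the rescaled flow `c g(t/c)` -/
noncomputable def resc (c : ℝ) (g : ℝ → Tensor V M) : ℝ → Tensor V M :=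
  fun t x => (show V →L[ℝ] V →L[ℝ] ℝ from c • gAt (g (t / c)) x)

theorem comp_resc (v : Fin n → V) (c : ℝ) (g : ℝ → Tensor V M) (t : ℝ)
    (e : OpenPartialHomeomorph M V) : comp v (resc c g t) e = smet c (comp v (g (t / c)) e) := rfl

theorem mem_div {c T t : ℝ} (hc : 0 < c) (ht : t ∈ Ico 0 (c * T)) : t / c ∈ Ico 0 T :=
  ⟨div_nonneg ht.1 hc.le, by rw [div_lt_iff₀ hc]; linarith [ht.2]⟩

theorem resc_flow [IsManifold 𝓘(ℝ, V) ∞ M] (v : Basis (Fin n) ℝ V) {c : ℝ} (hc : 0 < c)
    {g : ℝ → Tensor V M} {T : ℝ} (hg : IsRicciFlow v g T) :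
    IsRicciFlow v (resc c g) (c * T) where
  symm t ht x a b := by
    have h1 : gAt (g (t / c)) x a b = gAt (g (t / c)) x b a := hg.symm _ (mem_div hc ht) x a b
    exact congrArg (fun z : ℝ => c * z) h1
  pos t ht x a ha := by
    have h1 : 0 < gAt (g (t / c)) x a a := hg.pos _ (mem_div hc ht) x a ha
    exact mul_pos hc h1
  smooth e he i j := by
    have h1 := hg.smooth e he i j
    have h2 : ContDiffOn ℝ ∞ (fun p : ℝ × V => ((p.1 / c, p.2) : ℝ × V))
        (Ico 0 (c * T) ×ˢ e.target) := by fun_prop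
    have h3 := h1.comp h2 (fun p hp => ⟨mem_div hc hp.1, hp.2⟩)
    exact contDiffOn_const.mul h3
  flow e he y hy i j t ht := by
    have h1 := hg.flow e he y hy i j (t / c) (mem_div hc ht)
    have h2 : HasDerivWithinAt (fun s : ℝ => s / c) (1 / c) (Ico 0 (c * T)) t := by
      simpa using ((hasDerivAt_id t).div_const c).hasDerivWithinAt
    have h3 := h1.scomp (h := fun s : ℝ => s / c) t h2 (fun s hs => mem_div hc hs)
    have h4 := h3.const_mul c
    have h5 : ricci v (comp v (resc c g t) e) i j y = ricci v (comp v (g (t / c)) e) i j y := by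
      rw [comp_resc]
      exact ricci_smet hc.ne' v e.open_target
        (fun z hz => isUnit_comp v (g (t / c)) (hg.pos _ (mem_div hc ht)) he hz) hy i j
    rw [h5]
    refine h4.congr_deriv ?_
    rw [smul_eq_mul]
    field_simp

theorem resc_scal [IsManifold 𝓘(ℝ, V) ∞ M] (v : Basis (Fin n) ℝ V) {c : ℝ} (hc : 0 < c)
    {g : ℝ → Tensor V M} {T : ℝ} (hg : IsRicciFlow v g T) {t : ℝ} (ht : t ∈ Ico 0 (c * T))
    (x : M) : scalarCurvature v (resc c g t) x = c⁻¹ * scalarCurvature v (g (t / c)) x := by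
  have hU : ∀ z ∈ (chartAt V x).target, IsUnit (comp v (g (t / c)) (chartAt V x) z).det :=
    fun z hz => isUnit_comp v (g (t / c)) (hg.pos _ (mem_div hc ht)) (chart_mem_atlas V x) hz
  have hx := mem_chart_target V x
  unfold scalarCurvature
  rw [comp_resc]
  simp only [smet_inv hc.ne' (hU _ hx), ricci_smet hc.ne' v (chartAt V x).open_target hU hx,
    Finset.mul_sum, mul_assoc]

theorem resc_singular [IsManifold 𝓘(ℝ, V) ∞ M] (v : Basis (Fin n) ℝ V) {c : ℝ} (hc : 0 < c)
    {g : ℝ → Tensor V M} {T : ℝ} (hg : IsRicciFlow v g T)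
    (hb : ∃ C : ℝ, ∀ t ∈ Ico 0 T, ∀ x, |scalarCurvature v (g t) x| ≤ C)
    (hd : Rate (v : Fin n → V) g T) :
    IsRicciFlow v (resc c g) (c * T) ∧
    (∃ C : ℝ, ∀ t ∈ Ico 0 (c * T), ∀ x, |scalarCurvature v (resc c g t) x| ≤ C) ∧
    Rate (v : Fin n → V) (resc c g) (c * T) := by
  refine ⟨resc_flow v hc hg, ?_, ?_⟩
  · obtain ⟨C, hC⟩ := hb
    refine ⟨c⁻¹ * C, fun t ht x => ?_⟩
    rw [resc_scal v hc hg ht x, abs_mul, abs_of_pos (inv_pos.2 hc)]
    exact mul_le_mul_of_nonneg_left (hC _ (mem_div hc ht) x) (inv_pos.2 hc).le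
  · obtain ⟨x, i, j, hij, ⟨A, hA, B, hB, hi⟩, A', hA', B', hB', hi'⟩ := hd
    have hcα : 0 < c ^ sizeExp := Real.rpow_pos_of_pos hc _
    have hcα' : 0 < c ^ (-sizeExp) := Real.rpow_pos_of_pos hc _
    refine ⟨x, i, j, hij, ⟨c * A / c ^ sizeExp, by positivity, c * B / c ^ sizeExp,
      by positivity, fun t ht => ?_⟩, c⁻¹ * A' / c ^ (-sizeExp), by positivity,
      c⁻¹ * B' / c ^ (-sizeExp), by positivity, fun t ht => ?_⟩
    · have h1 := hi _ (mem_div hc ht)
      have h2 : (T - t / c) ^ sizeExp = (c * T - t) ^ sizeExp / c ^ sizeExp := by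
        rw [← Real.div_rpow (by linarith [ht.2]) hc.le]
        congr 1
        field_simp
      rw [h2] at h1
      rw [comp_resc]
      have h3 : c * A / c ^ sizeExp * (c * T - t) ^ sizeExp =
          c * (A * ((c * T - t) ^ sizeExp / c ^ sizeExp)) := by ring
      have h4 : c * B / c ^ sizeExp * (c * T - t) ^ sizeExp =
          c * (B * ((c * T - t) ^ sizeExp / c ^ sizeExp)) := by ring
      rw [h3, h4]
      exact ⟨mul_le_mul_of_nonneg_left h1.1 hc.le, mul_le_mul_of_nonneg_left h1.2 hc.le⟩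
    · have h1 := hi' _ (mem_div hc ht)
      have h2 : (T - t / c) ^ (-sizeExp) = (c * T - t) ^ (-sizeExp) / c ^ (-sizeExp) := by
        rw [← Real.div_rpow (by linarith [ht.2]) hc.le]
        congr 1
        field_simp
      rw [h2] at h1
      have h5 : sectional v (comp v (resc c g t) (chartAt V x)) i j (chartAt V x x) =
          c⁻¹ * sectional v (comp v (g (t / c)) (chartAt V x)) i j (chartAt V x x) := by
        rw [comp_resc]
        exact sectional_smet hc.ne' v (chartAt V x).open_target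
          (fun z hz => isUnit_comp v (g (t / c)) (hg.pos _ (mem_div hc ht))
            (chart_mem_atlas V x) hz) (mem_chart_target V x) i j
      rw [h5]
      have h3 : c⁻¹ * A' / c ^ (-sizeExp) * (c * T - t) ^ (-sizeExp) =
          c⁻¹ * (A' * ((c * T - t) ^ (-sizeExp) / c ^ (-sizeExp))) := by ring
      have h4 : c⁻¹ * B' / c ^ (-sizeExp) * (c * T - t) ^ (-sizeExp) =
          c⁻¹ * (B' * ((c * T - t) ^ (-sizeExp) / c ^ (-sizeExp))) := by ring
      rw [h3, h4]
      exact ⟨mul_le_mul_of_nonneg_left h1.1 (inv_pos.2 hc).le,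
        mul_le_mul_of_nonneg_left h1.2 (inv_pos.2 hc).le⟩

/-! ### Einstein flows -/

theorem einstein_flow [IsManifold 𝓘(ℝ, V) ∞ M] (v : Basis (Fin n) ℝ V) {k : Tensor V M} {c : ℝ}
    (hk : IsEinstein v k c) {T : ℝ} (hT : 2 * c * T < 1) :
    IsRicciFlow v (fun t => einsteinFlow k c t) T ∧
    ∃ C : ℝ, ∀ t ∈ Ico 0 T, ∀ x, |scalarCurvature v (einsteinFlow k c t) x| ≤ C := by
  have hpos : ∀ t ∈ Ico 0 T, min 1 (1 - 2 * c * T) ≤ 1 - 2 * c * t := by
    intro t ht
    rcases le_or_gt c 0 with h | h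
    · have : 0 ≤ -c * t := mul_nonneg (by linarith) ht.1
      exact (min_le_left _ _).trans (by linarith)
    · have : c * t ≤ c * T := mul_le_mul_of_nonneg_left ht.2.le h.le
      exact (min_le_right _ _).trans (by linarith)
  have hm : 0 < min 1 (1 - 2 * c * T) := lt_min one_pos (by linarith)
  have hpos' : ∀ t ∈ Ico 0 T, 0 < 1 - 2 * c * t := fun t ht => hm.trans_le (hpos t ht)
  have hcomp : ∀ t (e : OpenPartialHomeomorph M V),
      comp v (einsteinFlow k c t) e = smet (1 - 2 * c * t) (comp v k e) := fun t e => rfl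
  have hdet : ∀ e ∈ atlas V M, ∀ y ∈ e.target, IsUnit (comp v k e y).det :=
    fun e he y hy => isUnit_comp v k hk.pos he hy
  have hric : ∀ t ∈ Ico 0 T, ∀ e ∈ atlas V M, ∀ y ∈ e.target, ∀ i j,
      ricci v (comp v (einsteinFlow k c t) e) i j y = c * comp v k e y i j := by
    intro t ht e he y hy i j
    rw [hcomp, ricci_smet (hpos' t ht).ne' v e.open_target (hdet e he) hy]
    exact hk.einstein e he y hy i j
  refine ⟨⟨?_, ?_, ?_, ?_⟩, ?_⟩
  · intro t ht x a b
    have h1 : gAt k x a b = gAt k x b a := hk.symm x a b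
    exact congrArg (fun z : ℝ => (1 - 2 * c * t) * z) h1
  · intro t ht x a ha
    have h1 : 0 < gAt k x a a := hk.pos x a ha
    exact mul_pos (hpos' t ht) h1
  · intro e he i j
    have h1 := hk.smooth e he i j
    have h2 : ContDiffOn ℝ ∞ (fun p : ℝ × V => comp v k e p.2 i j) (Ico 0 T ×ˢ e.target) :=
      h1.comp contDiffOn_snd (fun p hp => hp.2)
    have h3 : ContDiffOn ℝ ∞ (fun p : ℝ × V => 1 - 2 * c * p.1) (Ico 0 T ×ˢ e.target) := by
      fun_prop
    exact h3.mul h2
  · intro e he y hy i j t ht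
    rw [hric t ht e he y hy i j]
    have h1 : HasDerivAt (fun s : ℝ => 1 - 2 * c * s) (-(2 * c)) t := by
      simpa using ((hasDerivAt_id t).const_mul (2 * c)).const_sub 1
    have h2 := (h1.mul_const (comp v k e y i j)).hasDerivWithinAt (s := Ico 0 T)
    refine h2.congr_deriv ?_
    ring
  · refine ⟨(min 1 (1 - 2 * c * T))⁻¹ * |c * n|, fun t ht x => ?_⟩
    have hx := mem_chart_target V x
    have h1 : scalarCurvature v (einsteinFlow k c t) x = (1 - 2 * c * t)⁻¹ * (c * n) := by
      unfold scalarCurvature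
      rw [hcomp]
      have e1 : ∀ i j, ricci v (smet (1 - 2 * c * t) (comp v k (chartAt V x))) i j
          (chartAt V x x) = c * comp v k (chartAt V x) (chartAt V x x) j i := by
        intro i j
        rw [← hcomp, hric t ht _ (chart_mem_atlas V x) _ hx i j]
        have h2 : gAt k ((chartAt V x).symm (chartAt V x x))
            (dsym (chartAt V x) (chartAt V x x) (v i)) (dsym (chartAt V x) (chartAt V x x) (v j)) =
            gAt k ((chartAt V x).symm (chartAt V x x))
            (dsym (chartAt V x) (chartAt V x x) (v j)) (dsym (chartAt V x) (chartAt V x x) (v i)) :=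
          hk.symm _ _ _
        exact congrArg (fun z : ℝ => c * z) h2
      simp only [smet_inv (hpos' t ht).ne' (hdet _ (chart_mem_atlas V x) _ hx), e1]
      have h3 := Matrix.nonsing_inv_mul _ (hdet _ (chart_mem_atlas V x) _ hx)
      have h4 : ∀ i : Fin n, ∑ j, (comp v k (chartAt V x) (chartAt V x x))⁻¹ i j *
          comp v k (chartAt V x) (chartAt V x x) j i = 1 := by
        intro i
        have h5 := congrFun (congrFun h3 i) i
        rw [Matrix.mul_apply, Matrix.one_apply_eq] at h5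
        exact h5
      calc ∑ i, ∑ j, (1 - 2 * c * t)⁻¹ * (comp v k (chartAt V x) (chartAt V x x))⁻¹ i j *
            (c * comp v k (chartAt V x) (chartAt V x x) j i)
          = ∑ i : Fin n, (1 - 2 * c * t)⁻¹ * c *
              ∑ j, (comp v k (chartAt V x) (chartAt V x x))⁻¹ i j *
                comp v k (chartAt V x) (chartAt V x x) j i := by
            refine Finset.sum_congr rfl (fun i _ => ?_)
            rw [Finset.mul_sum]
            refine Finset.sum_congr rfl (fun j _ => ?_)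
            ring
        _ = (1 - 2 * c * t)⁻¹ * (c * n) := by
            simp only [h4, mul_one, Finset.sum_const, Finset.card_univ, Fintype.card_fin,
              nsmul_eq_mul]
            ring
    rw [h1, abs_mul, abs_of_pos (inv_pos.2 (hpos' t ht))]
    exact mul_le_mul_of_nonneg_right (inv_anti₀ hm (hpos t ht)) (abs_nonneg _)

end Vale.Agent.P244.H109
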